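import Vale.Agent.P366.H896.M.X2b

/-! Metrics `η + V l ⊗ l` with `l` null: the superpotential at the points of a hypersurface. -/

open MeasureTheory Metric Filter Topology Set
open scoped ContDiff

noncomputable section
namespace Vale.Agent.P366.H896
open Vale.Agent.P366.Stmt Vale.Agent.P366.T2

variable {m : ℕ}

namespace KNg

variable {e : Fin m → ℝ} {g : Field m} {l : Fin m → E m → ℝ} {V : E m → ℝ} {U : Set (E m)}
  (h : KNg e g l V U)
include h

/-- **The superpotential identity on a hypersurface** with the conormal `nu` on which the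
acceleration is `κ l`. -/
theorem superpot_pt {x : E m} (hx : x ∈ U) {nu : Fin m → ℝ} {κ : ℝ} {κc α : Fin m → ℝ}
    (H1 : ∀ b, acc e l b x = κ * l b x)
    (H2 : ∀ c b, pd c (acc e l b) x = κc c * l b x + κ * pd c (l b) x + nu c * α b)
    (H3 : ∑ b, e b * (l b x * α b) = 0) (b : Fin m) :
    ∑ a, nu a * einM g a b x = ∑ a, nu a * ∑ c, pd c (UL e l V a c b) x := by
  have f1 : ∀ F : E m → ℝ, ∑ c, e c * (l c x * pd c F x) = lk e l F x := fun _ => rfl
  have f2 : ∀ b, lk e l (l b) x = acc e l b x := fun _ => rfl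
  have hn := h.null x hx
  have ha2 : ac2 e l x = 0 := by
    unfold ac2
    have e1 : ∀ b, e b * (acc e l b x * acc e l b x) = κ ^ 2 * (e b * (l b x * l b x)) := fun b => by
      rw [H1]; ring
    simp only [e1, ← Finset.mul_sum, hn, mul_zero]
  have hak : ∀ F : E m → ℝ, ak e l F x = κ * lk e l F x := by
    intro F
    unfold ak lk
    rw [Finset.mul_sum]
    exact Finset.sum_congr rfl fun d _ => by rw [H1]; ring
  set kκ := ∑ c, e c * (l c x * κc c) with hkκ
  set kn := ∑ c, e c * (l c x * nu c) with hkn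
  set na := ∑ c, e c * (nu c * α c) with hna
  have hDa : ∀ b, lk e l (acc e l b) x = (kκ + κ ^ 2) * l b x + kn * α b := by
    intro b
    rw [← f1]
    have e1 : ∀ c, e c * (l c x * pd c (acc e l b) x) = (e c * (l c x * κc c)) * l b x +
        κ * (e c * (l c x * pd c (l b) x)) + (e c * (l c x * nu c)) * α b := fun c => by
      rw [H2]; ring
    simp only [e1, Finset.sum_add_distrib, ← Finset.sum_mul, ← Finset.mul_sum, f1, f2, H1]
    rw [← hkκ, ← hkn]; ring
  have hda : ∑ b, e b * pd b (acc e l b) x = kκ + κ * lth e l x + na := by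
    have e1 : ∀ c, e c * pd c (acc e l c) x = e c * (l c x * κc c) +
        κ * (e c * pd c (l c) x) + e c * (nu c * α c) := fun c => by rw [H2]; ring
    simp only [e1, Finset.sum_add_distrib, ← Finset.mul_sum]
    rfl
  have hDth : lk e l (lth e l) x = kκ + κ * lth e l x + na - lT e l x := by
    have := h.div_acc hx
    rw [hda] at this
    linarith
  set DV := lk e l V x with hDV
  set DDV := lk e l (lk e l V) x with hDDV
  set th := lth e l x with hth
  set S := lS e l x with hS
  set T := lT e l x with hT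
  have hph : lph e l V x = DV + V x * th := rfl
  have hDph : lk e l (lph e l V) x = DDV + DV * th + V x * (kκ + κ * th + na - T) := by
    rw [h.kn_ph hx, hDth]
  set q := ((DV + V x * th) * (DV + 2 * κ * V x) + V x * (DDV + 4 * κ * DV +
      V x * (2 * kκ + 4 * κ ^ 2))) / 2 - ((DV + κ * V x) ^ 2 + 2 * κ * V x * DV +
      2 * κ ^ 2 * V x ^ 2 - V x ^ 2 * (S - T)) / 2 with hq
  have hQ : ∀ a b, Qn e l V a b x = q * (l a x * l b x) +
      V x ^ 2 * kn / 2 * (α a * l b x + l a x * α b) := by
    intro a b
    unfold Qn Qd Dh DDh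
    rw [ha2, hak, hak, hak, f2, f2, hDa, hDa, H1, H1, hph, hq]
    ring
  have hlb : ∀ b, ∑ c, e c * (pd b (l c) x * acc e l c x) = 0 := by
    intro b
    have e1 : ∀ c, e c * (pd b (l c) x * acc e l c x) = κ * (e c * (l c x * pd b (l c) x)) :=
      fun c => by rw [H1]; ring
    simp only [e1, ← Finset.mul_sum, h.null1 hx, mul_zero]
  have hDj : ∀ b, lk e l (jn e l V b) x = (DDV + DV * th + V x * (kκ + κ * th + na - T) +
      κ * (DV + V x * th) + κ * DV + V x * (kκ + κ ^ 2)) * l b x + V x * kn * α b := by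
    intro b
    rw [KL0.lk_hp (fun c => h.hp_jn hx c b)]
    have e1 : ∀ c, e c * (l c x * (pd c (lph e l V) x * l b x + lph e l V x * pd c (l b) x +
        (pd c V x * acc e l b x + V x * pd c (acc e l b) x))) =
        (e c * (l c x * pd c (lph e l V) x)) * l b x +
        lph e l V x * (e c * (l c x * pd c (l b) x)) +
        (e c * (l c x * pd c V x)) * acc e l b x +
        V x * (e c * (l c x * pd c (acc e l b) x)) := fun c => by ring
    simp only [e1, Finset.sum_add_distrib, ← Finset.sum_mul, ← Finset.mul_sum, f1, f2]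
    rw [hDph, hDa, H1, hph]
    ring
  have hX : ∀ b, Xn e l V b x = ((DDV + DV * th + V x * (kκ + κ * th + na - T) +
      κ * (DV + V x * th) + κ * DV + V x * (kκ + κ ^ 2)) * l b x + V x * kn * α b +
      V x * S * l b x) / 2 := by
    intro b
    unfold Xn
    rw [hDj, hlb, ha2]
    ring
  have hQt : ∑ a, e a * Qn e l V a a x = 0 := by
    have e1 : ∀ a, e a * Qn e l V a a x = q * (e a * (l a x * l a x)) +
        V x ^ 2 * kn * (e a * (l a x * α a)) := fun a => by rw [hQ]; ring
    simp only [e1, Finset.sum_add_distrib, ← Finset.mul_sum, hn, H3]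
    ring
  have hsc : scal g x = ∑ a, e a * Rl e l V a a x := by
    rw [h.scal_eq hx, hQt, ha2]; ring
  have hkn' : ∑ a, nu a * (e a * l a x) = kn := by
    rw [hkn]; exact Finset.sum_congr rfl fun a _ => by ring
  have e1 : ∀ a, nu a * einM g a b x = nu a * (∑ c, pd c (UL e l V a c b) x) +
      ((q * l b x + V x ^ 2 * kn / 2 * α b - V x * Xn e l V b x) * (nu a * (e a * l a x)) +
      V x ^ 2 * kn / 2 * l b x * (e a * (nu a * α a))) := by
    intro a
    rw [h.einM_eq hx, h.div_UL hx, hQ, hsc]
    ring
  have e2 : ∑ a, nu a * einM g a b x = ∑ a, nu a * (∑ c, pd c (UL e l V a c b) x) +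
      ((q * l b x + V x ^ 2 * kn / 2 * α b - V x * Xn e l V b x) * kn +
      V x ^ 2 * kn / 2 * l b x * na) := by
    simp only [e1]
    rw [Finset.sum_add_distrib, Finset.sum_add_distrib, ← Finset.mul_sum, ← Finset.mul_sum,
      hkn', ← hna]
  rw [e2, hX, hq]
  ring

/-- The superpotential identity at the points with `V = 0`. -/
theorem superpot_zero {x : E m} (hx : x ∈ U) (hV : V x = 0) (a b : Fin m) :
    einM g a b x = ∑ c, pd c (UL e l V a c b) x := by
  have hQ : ∀ a b, Qn e l V a b x = 0 := by
    intro a b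
    unfold Qn Qd Dh DDh lph
    rw [hV]
    ring
  rw [h.einM_eq hx, h.div_UL hx, hQ, h.scal_eq hx, hV]
  simp only [hQ, mul_zero, Finset.sum_const_zero]
  ring

/-- `U^{ac}_b l_c = V k^a (θ l_b - a_b) / 2` -/
theorem UL_l {x : E m} (hx : x ∈ U) (a b : Fin m) : ∑ c, UL e l V a c b x * l c x =
    V x * (e a * l a x) * (lth e l x * l b x - acc e l b x) / 2 := by
  have h2 : ∀ c, ∑ d, e c * e d * pd d (hl l V c d) x = e c * jn e l V c x := by
    intro c
    rw [← h.div_hn hx c, Finset.mul_sum]
    exact Finset.sum_congr rfl fun d _ => by ring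
  have hj : ∑ c, e c * (l c x * jn e l V c x) = 0 := by
    have e1 : ∀ c, e c * (l c x * jn e l V c x) = lph e l V x * (e c * (l c x * l c x)) +
        V x * (e c * (l c x * acc e l c x)) := fun c => by unfold jn; ring
    simp only [e1, Finset.sum_add_distrib, ← Finset.mul_sum, h.null x hx, h.k_acc hx]
    ring
  have e1 : ∀ c, UL e l V a c b x * l c x =
      (e a / 2) * (pd a V x * l b x + V x * pd a (l b) x) * (e c * (l c x * l c x)) +
      (e a / 2) * (V x * l b x) * (e c * (l c x * pd a (l c) x)) -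
      (e a / 2) * (l a x * l b x) * (e c * (l c x * pd c V x)) -
      (e a / 2) * (V x * l b x) * (e c * (l c x * pd c (l a) x)) -
      (e a / 2) * (V x * l a x) * (e c * (l c x * pd c (l b) x)) -
      ((if a = b then 1 else 0) / 2) * (e c * (l c x * jn e l V c x)) +
      (if c = b then e a * jn e l V a x / 2 * l b x else 0) := by
    intro c
    unfold UL
    rw [h2, h2, (h.hp_hl hx a c b).pd, (h.hp_hl hx c a b).pd]
    by_cases hcb : c = b
    · subst hcb
      simp only [if_true]
      split_ifs <;> ring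
    · simp only [if_neg hcb]
      split_ifs <;> ring
  simp only [e1, Finset.sum_add_distrib, Finset.sum_sub_distrib, ← Finset.mul_sum, h.null x hx,
    h.null1 hx, hj, Finset.sum_ite_eq', Finset.mem_univ, if_true]
  have f1 : ∀ F : E m → ℝ, ∑ c, e c * (l c x * pd c F x) = lk e l F x := fun _ => rfl
  have f2 : ∀ b, lk e l (l b) x = acc e l b x := fun _ => rfl
  simp only [f1, f2]
  unfold jn lph
  ring

end KNg

end Vale.Agent.P366.H896
end
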