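import Vale.Agent.P366.H208.G.Cone
import Vale.Agent.P366.H896.M.X2c
import Vale.Agent.P366.H896.L.GlueB

/-! Round 3: null covector field without the geodesic condition (R3a, R3c). -/

open MeasureTheory Metric Filter Topology Set
open scoped ContDiff ENNReal

noncomputable section
namespace Vale.Agent.P366.KSL

open Vale.Agent.P366 (pd E)
open Vale.Agent.P366.H353.N
open Vale.Agent.P366.H896 (KL0 KNg UL UL_anti lth hl Rl einM CR)
open Vale.Agent.P366.Kerr (NullCone Psi pt sp sgn ksL ein FutTimelike DECatL)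
open Vale.Agent.P366.KSN (stmt_pd stmt_pd2 Y dts sg Ms Ws dts_pos Ms_mul_x Ms_symm posU' smH smU homH
  homU Ws_x Ws_x' Ws_symm)
open Vale.Agent.P366.KSN.X5 (cdd cd_pd DP)
open Vale.Agent.P366.KSN.X2 (sgm sgi pd_sgi sgm_cd sgm_one sm_sgi)

variable {n : ℕ} {C : NullCone n} {l : Fin (n + 1) → E (n + 1) → ℝ} {V : E (n + 1) → ℝ}
  {f : E n → ℝ} {p : E (n + 1)} {x y : E n}

lemma toKNg (smV : ContDiffAt ℝ ∞ V p) (sml : ∀ a, ContDiffAt ℝ ∞ (l a) p)
    (null : ∀ᶠ q in 𝓝 p, ∑ a, sgn a * l a q ^ 2 = 0) :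
    ∃ U, p ∈ U ∧ KNg sgn (ksL l V) l V U := by
  have h1 : ∀ᶠ q in 𝓝 p, ContDiffAt ℝ ((5 : ℕ) : WithTop ℕ∞) V q :=
    (smV.of_le (KSN.X1.nat_le_smooth 5)).eventually (by simp)
  have h2 : ∀ᶠ q in 𝓝 p, ∀ a, ContDiffAt ℝ ((5 : ℕ) : WithTop ℕ∞) (l a) q :=
    Filter.eventually_all.2 fun a =>
      ((sml a).of_le (KSN.X1.nat_le_smooth 5)).eventually (by simp)
  obtain ⟨U, hU, hUo, hpU⟩ := _root_.eventually_nhds_iff.1 ((h1.and h2).and null)
  refine ⟨U, hpU, ⟨⟨hUo, fun a => ?_, fun a z hz => (hU z hz).1.2 a, fun z hz => (hU z hz).1.1,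
    fun z _ a b => ?_⟩, fun z hz => ?_⟩⟩
  · unfold sgn; split_ifs <;> norm_num
  · unfold ksL; ring
  · rw [← (hU z hz).2]
    exact Finset.sum_congr rfl fun a _ => by ring

lemma hhn_eq (l : Fin (n + 1) → E (n + 1) → ℝ) (V : E (n + 1) → ℝ) (a b : Fin (n + 1)) :
    hh l V a b = hl l V a b := by
  funext q; unfold hh hl; ring

lemma Upn_eq {U : Set (E (n + 1))} (hU : KL0 sgn (ksL l V) l V U) {q : E (n + 1)} (hq : q ∈ U)
    (a c b : Fin (n + 1)) : Up l V a c b q = UL sgn l V a c b q := by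
  have h1 : ∀ a b c, pd c (hh l V a b) q = Stmt.pd c (hl l V a b) q := by
    intro a b c
    rw [hhn_eq, stmt_pd ((hU.shl0 a b).diff hq)]
  unfold Up UL
  simp only [h1, kd]
  split_ifs <;> ring

lemma ULn_diff {U : Set (E (n + 1))} (hU : KL0 sgn (ksL l V) l V U) {q : E (n + 1)} (hq : q ∈ U)
    (a c b : Fin (n + 1)) : DifferentiableAt ℝ (UL sgn l V a c b) q := by
  have s : ∀ a c b, DifferentiableAt ℝ (Stmt.pd a (hl l V c b)) q := fun a c b =>
    (hU.shl1 a c b).diff hq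
  have t : ∀ c b : Fin (n + 1), DifferentiableAt ℝ (fun y => if c = b then
      ∑ d, sgn a * sgn d * Stmt.pd d (hl l V a d) y else 0) q := by
    intro c b
    by_cases hcb : c = b
    · simp only [if_pos hcb]
      exact DifferentiableAt.fun_sum fun d _ => (s d a d).const_mul _
    · simp only [if_neg hcb]; exact differentiableAt_const _
  have t' : DifferentiableAt ℝ (fun y => if a = b then
      ∑ d, sgn c * sgn d * Stmt.pd d (hl l V c d) y else 0) q := by
    by_cases hab : a = b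
    · simp only [if_pos hab]
      exact DifferentiableAt.fun_sum fun d _ => (s d c d).const_mul _
    · simp only [if_neg hab]; exact differentiableAt_const _
  have r := ((((s a c b).sub (s c a b)).const_mul (sgn a * sgn c)).sub t').add (t c b)
  have r2 := r.const_mul (1 / 2 : ℝ)
  refine r2.congr_of_eventuallyEq (Eventually.of_forall fun y => ?_)
  simp only [Pi.add_apply, Pi.sub_apply]
  unfold UL
  ring

lemma Upn_pd {U : Set (E (n + 1))} (hU : KL0 sgn (ksL l V) l V U) {q : E (n + 1)} (hq : q ∈ U)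
    (a c b d : Fin (n + 1)) : pd d (Up l V a c b) q = Stmt.pd d (UL sgn l V a c b) q := by
  rw [stmt_pd (ULn_diff hU hq a c b)]
  have h1 : Up l V a c b =ᶠ[𝓝 q] UL sgn l V a c b := by
    filter_upwards [hU.op.mem_nhds hq] with z hz using Upn_eq hU hz a c b
  unfold Vale.Agent.P366.pd
  rw [h1.fderiv_eq]

lemma acc_eq (l : Fin (n + 1) → E (n + 1) → ℝ) (a : Fin (n + 1)) :
    acc l a = H896.acc sgn l a := by
  funext q
  unfold acc H896.acc H896.lk
  exact Finset.sum_congr rfl fun b _ => by ring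

theorem r_ein_symm (smV : ContDiffAt ℝ ∞ V p) (sml : ∀ a, ContDiffAt ℝ ∞ (l a) p)
    (null : ∀ᶠ q in 𝓝 p, ∑ a, sgn a * l a q ^ 2 = 0) (a b : Fin (n + 1)) :
    ein (ksL l V) a b p = ein (ksL l V) b a p := by
  obtain ⟨U, hp, hU⟩ := toKNg smV sml null
  rw [KSN.X1.ein_eq, KSN.X1.ein_eq, hU.ein_symm hp]

theorem r_ekk (smV : ContDiffAt ℝ ∞ V p) (sml : ∀ a, ContDiffAt ℝ ∞ (l a) p)
    (null : ∀ᶠ q in 𝓝 p, ∑ a, sgn a * l a q ^ 2 = 0) :
    ekk l V p = -(V p * ∑ a, sgn a * acc l a p ^ 2) := by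
  obtain ⟨U, hp, hU⟩ := toKNg smV sml null
  have h1 := hU.ein_kk hp
  have h2 : H896.ac2 sgn l p = ∑ a, sgn a * acc l a p ^ 2 := by
    unfold H896.ac2
    exact Finset.sum_congr rfl fun a _ => by rw [acc_eq]; ring
  rw [h2] at h1
  rw [← h1]
  unfold ekk
  exact Finset.sum_congr rfl fun a _ => Finset.sum_congr rfl fun b _ => by rw [KSN.X1.ein_eq]

theorem r_l_acc (smV : ContDiffAt ℝ ∞ V p) (sml : ∀ a, ContDiffAt ℝ ∞ (l a) p)
    (null : ∀ᶠ q in 𝓝 p, ∑ a, sgn a * l a q ^ 2 = 0) :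
    ∑ a, sgn a * (l a p * acc l a p) = 0 := by
  obtain ⟨U, hp, hU⟩ := toKNg smV sml null
  rw [← hU.k_acc hp]
  exact Finset.sum_congr rfl fun a _ => by rw [acc_eq]

lemma Upn_smooth (smV : ContDiffAt ℝ ∞ V p) (sml : ∀ a, ContDiffAt ℝ ∞ (l a) p)
    (a c b : Fin (n + 1)) : ContDiffAt ℝ ∞ (Up l V a c b) p := by
  have h0 : ∀ a b, ContDiffAt ℝ ∞ (hh l V a b) p := fun a b => (smV.mul (sml a)).mul (sml b)
  have h1 : ∀ a b c, ContDiffAt ℝ ∞ (pd c (hh l V a b)) p := fun a b c => cd_pd (h0 a b) c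
  have h2 : ∀ c, ContDiffAt ℝ ∞ (fun q => ∑ d, sgn c * sgn d * pd d (hh l V c d) q) p := fun c =>
    ContDiffAt.sum fun d _ => contDiffAt_const.mul (h1 c d d)
  have h3 : ContDiffAt ℝ ∞ (fun q => (sgn a * sgn c * pd a (hh l V c b) q -
      sgn a * sgn c * pd c (hh l V a b) q - kd a b * (∑ d, sgn c * sgn d * pd d (hh l V c d) q) +
      kd c b * (∑ d, sgn a * sgn d * pd d (hh l V a d) q)) * (1 / 2)) p :=
    ((((contDiffAt_const.mul (h1 c b a)).sub (contDiffAt_const.mul (h1 a b c))).sub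
      (contDiffAt_const.mul (h2 c))).add (contDiffAt_const.mul (h2 a))).mul contDiffAt_const
  refine h3.congr_of_eventuallyEq (Eventually.of_forall fun q => ?_)
  unfold Up; ring

theorem r_Z_smooth (hf : ContDiffAt ℝ ∞ f y) (smV : ContDiffAt ℝ ∞ V (pt (f y) y))
    (sml : ∀ a, ContDiffAt ℝ ∞ (l a) (pt (f y) y)) (b : Fin (n + 1))
    (i : Fin n) : ContDiffAt ℝ ∞ (Zf l V f b i) y := by
  have h1 : ∀ a c, ContDiffAt ℝ ∞ (fun z => Up l V a c b (pt (f z) z)) y := fun a c =>
    ContDiffAt.comp (g := Up l V a c b) (f := fun z => pt (f z) z) y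
      (Upn_smooth smV sml a c b) (gr_smooth hf)
  exact (h1 0 i.succ).sub (ContDiffAt.sum fun j _ => (cd_pd hf j).mul (h1 j.succ i.succ))

/-- the jet of the acceleration at the point of a hypersurface on which it is `κ l` -/
lemma graph_jet (hf : ContDiffAt ℝ ∞ f y) {U : Set (E (n + 1))}
    (hU : KNg sgn (ksL l V) l V U) (hp : pt (f y) y ∈ U) (fut : 0 < l 0 (pt (f y) y))
    (hg : ∀ᶠ z in 𝓝 y, ∃ κ : ℝ, ∀ a, acc l a (pt (f z) z) = κ * l a (pt (f z) z)) :
    ∃ (κ : ℝ) (κc α : Fin (n + 1) → ℝ),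
      (∀ b, H896.acc sgn l b (pt (f y) y) = κ * l b (pt (f y) y)) ∧
      (∀ c b, Stmt.pd c (H896.acc sgn l b) (pt (f y) y) = κc c * l b (pt (f y) y) +
        κ * Stmt.pd c (l b) (pt (f y) y) +
        (Fin.cons (α := fun _ => ℝ) 1 (fun i => - pd i f y) c) * α b) ∧
      ∑ b, sgn b * (l b (pt (f y) y) * α b) = 0 := by
  set q := pt (f y) y with hq
  have hfd := cdd hf
  have hgc : ContinuousAt (fun z => pt (f z) z) y := (gr_smooth hf).continuousAt
  have hUn : ∀ᶠ w in 𝓝 q, w ∈ U := hU.op.mem_nhds hp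
  have hl0c : ContinuousAt (l 0) q := ((hU.sl0 0).diff hp).continuousAt
  have hl0 : ∀ᶠ w in 𝓝 q, l 0 w ≠ 0 := hl0c.eventually_ne fut.ne'
  have hl0z : ∀ᶠ z in 𝓝 y, l 0 (pt (f z) z) ≠ 0 := hgc.eventually hl0
  set κf : E (n + 1) → ℝ := fun w => H896.acc sgn l 0 w * (l 0 w)⁻¹ with hκf
  set zf : Fin (n + 1) → E (n + 1) → ℝ := fun b w => H896.acc sgn l b w - κf w * l b w with hzf
  have dacc : ∀ b, DifferentiableAt ℝ (H896.acc sgn l b) q := fun b => (hU.sacc0 b).diff hp
  have dl : ∀ b, DifferentiableAt ℝ (l b) q := fun b => (hU.sl0 b).diff hp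
  have dκ : DifferentiableAt ℝ κf q := (dacc 0).mul ((dl 0).inv fut.ne')
  have dz : ∀ b, DifferentiableAt ℝ (zf b) q := fun b => (dacc b).sub (dκ.mul (dl b))
  have hz0 : ∀ᶠ z in 𝓝 y, ∀ b, zf b (pt (f z) z) = 0 := by
    filter_upwards [hg, hl0z] with z ⟨κ, hκ⟩ h0 b
    simp only [hzf, hκf]
    rw [← acc_eq, ← acc_eq, hκ, hκ]
    field_simp
    ring
  have hzy : ∀ b, zf b q = 0 := fun b => hz0.self_of_nhds b
  have hpz : ∀ b (i : Fin n), pd i.succ (zf b) q + pd i f y * pd 0 (zf b) q = 0 := by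
    intro b i
    have h1 := KSN.Gr.dp_gr (dz b) hfd i
    have h2 : (fun z => zf b (pt (f z) z)) =ᶠ[𝓝 y] fun _ => 0 := hz0.mono fun z hz => hz b
    rw [← h1.2]
    unfold Vale.Agent.P366.pd
    rw [h2.fderiv_eq]
    simp
  refine ⟨κf q, fun c => pd c κf q, fun b => pd 0 (zf b) q, fun b => ?_, fun c b => ?_, ?_⟩
  · have := hzy b
    simp only [hzf] at this
    linarith
  · have h1 : pd c (zf b) q = (Fin.cons (α := fun _ => ℝ) 1 (fun i => - pd i f y) c) *
        pd 0 (zf b) q := by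
      refine Fin.cases ?_ (fun i => ?_) c
      · simp
      · have := hpz b i
        simp only [Fin.cons_succ]
        linarith
    have h2 : pd c (zf b) q = pd c (H896.acc sgn l b) q -
        (pd c κf q * l b q + κf q * pd c (l b) q) :=
      ((DP.of (dacc b)).sub ((DP.of dκ).mul (DP.of (dl b)))).2
    rw [stmt_pd (dacc b), stmt_pd (dl b), ← h1, h2]
    ring
  · have h1 : DP 0 (fun w => ∑ b, sgn b * (l b w * zf b w))
        (∑ b, sgn b * (pd 0 (l b) q * zf b q + l b q * pd 0 (zf b) q)) q :=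
      DP.sum _ fun b => ((DP.of (dl b)).mul (DP.of (dz b))).cmul (sgn b)
    have h2 : (fun w => ∑ b, sgn b * (l b w * zf b w)) =ᶠ[𝓝 q] fun _ => 0 := by
      filter_upwards [hUn] with w hw
      have e1 : ∀ b, sgn b * (l b w * zf b w) = sgn b * (l b w * H896.acc sgn l b w) -
          κf w * (sgn b * (l b w * l b w)) := fun b => by simp only [hzf]; ring
      simp only [e1, Finset.sum_sub_distrib, ← Finset.mul_sum, hU.k_acc hw, hU.null w hw]
      ring
    have h3 : pd 0 (fun w => ∑ b, sgn b * (l b w * zf b w)) q = 0 := by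
      unfold Vale.Agent.P366.pd
      rw [h2.fderiv_eq]
      simp
    rw [h1.2] at h3
    rw [← h3]
    exact Finset.sum_congr rfl fun b _ => by rw [hzy b]; ring

/-- **the divergence identity** -/
theorem r_div_Z (hf : ContDiffAt ℝ ∞ f y) (smV : ContDiffAt ℝ ∞ V (pt (f y) y))
    (sml : ∀ a, ContDiffAt ℝ ∞ (l a) (pt (f y) y))
    (null : ∀ᶠ q in 𝓝 (pt (f y) y), ∑ a, sgn a * l a q ^ 2 = 0) (fut : 0 < l 0 (pt (f y) y))
    (hg : V (pt (f y) y) = 0 ∨
      ∀ᶠ z in 𝓝 y, ∃ κ : ℝ, ∀ a, acc l a (pt (f z) z) = κ * l a (pt (f z) z))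
    (b : Fin (n + 1)) : ∑ i, pd i (Zf l V f b i) y =
      Gm l V 0 b (pt (f y) y) - ∑ j : Fin n, pd j f y * Gm l V j.succ b (pt (f y) y) := by
  obtain ⟨U, hp, hU⟩ := toKNg smV sml null
  have h1 := (KSN.Gr.div_graph (W := fun a c => Up l V a c b) (fun a c q => Up_anti l V a c b q)
    hf (fun a c => cdd (Upn_smooth smV sml a c b))).2
  have h2 : ∑ i, pd i (Zf l V f b i) y = ∑ c, pd c (Up l V 0 c b) (pt (f y) y) -
      ∑ j : Fin n, pd j f y * ∑ c, pd c (Up l V j.succ c b) (pt (f y) y) := h1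
  rw [h2]
  simp only [Upn_pd hU.toKL0 hp, Gm_eq]
  rcases hg with h0 | hg
  · simp only [hU.superpot_zero hp h0]
  · obtain ⟨κ, κc, α, H1, H2, H3⟩ := graph_jet hf hU hp fut hg
    have h3 := hU.superpot_pt hp H1 H2 H3 b
    rw [Fin.sum_univ_succ, Fin.sum_univ_succ] at h3
    simp only [Fin.cons_zero, Fin.cons_succ, one_mul, neg_mul, Finset.sum_neg_distrib] at h3
    linarith

/-- **the expansion of the congruence on the boundary surface** -/
theorem r_theta_bdr (smV : ContDiffAt ℝ ∞ V (pt (- C.U x) (Y C.H x (C.U x))))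
    (sml : ∀ a, ContDiffAt ℝ ∞ (l a) (pt (- C.U x) (Y C.H x (C.U x))))
    (null : ∀ᶠ q in 𝓝 (pt (- C.U x) (Y C.H x (C.U x))), ∑ a, sgn a * l a q ^ 2 = 0)
    (fut : 0 < l 0 (pt (- C.U x) (Y C.H x (C.U x)))) {κ : ℝ}
    (hκ : ∀ a, acc l a (pt (- C.U x) (Y C.H x (C.U x))) =
      κ * l a (pt (- C.U x) (Y C.H x (C.U x))))
    (nor : ∀ x, x ≠ 0 → ‖x‖ = C.U x → ∀ i : Fin n,
      l i.succ (pt (- C.U x) (Psi C.H x)) = l 0 (pt (- C.U x) (Psi C.H x)) * (x i / ‖x‖))
    (hx : ‖x‖ = 1) : dts C.H (C.U x) x * (lth sgn l (pt (- C.U x) (Y C.H x (C.U x))) - κ) =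
      l 0 (pt (- C.U x) (Y C.H x (C.U x))) * sg C.H (C.U x) x := by
  have hx0 := ne_zero_of_one hx
  have hsgm := sgm_one C hx
  set q := pt (- C.U x) (Y C.H x (C.U x)) with hq
  set ζ := l 0 q with hζ
  obtain ⟨U, hqU, hU⟩ := toKNg smV sml null
  have s0 : sgn (0 : Fin (n + 1)) = -1 := rfl
  have ss : ∀ i : Fin n, sgn i.succ = 1 := fun i => by simp [sgn, Fin.succ_ne_zero]
  have hld : ∀ a, DifferentiableAt ℝ (l a) q := fun a => cdd (sml a)
  have hspd : ∀ a b, Stmt.pd a (l b) q = pd a (l b) q := fun a b => stmt_pd (hld b) a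
  have hζp : 0 < ζ := fut
  have hlx : ∀ i : Fin n, l i.succ q = ζ * x i := by
    intro i
    have h1 := l_sgm nor hx0 i
    rw [hsgm, hx, div_one] at h1
    exact h1
  have hl0 : l 0 q = ζ * 1 := by rw [mul_one]
  -- acceleration: `∑ x_j ∂_j l_a = ∂_0 l_a + κ (1, x)_a`
  have geo : ∀ a (r : ℝ), l a q = ζ * r → ∑ j : Fin n, x j * pd j.succ (l a) q =
      pd 0 (l a) q + κ * r := by
    intro a r hr
    have h1 := hκ a
    unfold acc at h1
    rw [Fin.sum_univ_succ] at h1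
    simp only [s0, ss, one_mul, hspd, hlx, hr] at h1
    have h2 : ∑ j : Fin n, ζ * x j * pd j.succ (l a) q =
        ζ * ∑ j : Fin n, x j * pd j.succ (l a) q := by
      rw [Finset.mul_sum]; exact Finset.sum_congr rfl fun j _ => by ring
    rw [h2] at h1
    have h3 : ζ * (∑ j : Fin n, x j * pd j.succ (l a) q - (pd 0 (l a) q + κ * r)) = 0 := by
      rw [hζ] at h1 ⊢; linarith
    have := (mul_eq_zero.1 h3).resolve_left hζp.ne'
    linarith
  -- null: `∑ x_i ∂_b l_i = ∂_b l_0`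
  have nul : ∀ b, ∑ i : Fin n, x i * pd b (l i.succ) q = pd b (l 0) q := by
    intro b
    have h1 := hU.null1 hqU b
    rw [Fin.sum_univ_succ] at h1
    simp only [s0, ss, one_mul, hspd, hlx] at h1
    have h2 : ∑ j : Fin n, ζ * x j * pd b (l j.succ) q =
        ζ * ∑ j : Fin n, x j * pd b (l j.succ) q := by
      rw [Finset.mul_sum]; exact Finset.sum_congr rfl fun j _ => by ring
    rw [h2] at h1
    have h3 : ζ * (∑ j : Fin n, x j * pd b (l j.succ) q - pd b (l 0) q) = 0 := by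
      rw [hζ] at h1 ⊢; linarith
    have := (mul_eq_zero.1 h3).resolve_left hζp.ne'
    linarith
  -- derivative of `l_i = l_0 x_i` along the surface
  have dl : ∀ a k (r : ℝ), l a q = ζ * r → pd k (fun z => l a (pt (- C.U z) (sgm C z))) x =
      ∑ j, Ws C.H (C.U x) x k j * pd j.succ (l a) q + pd k C.U x * κ * r := by
    intro a k r hr
    rw [pd_bp C hx (by rw [hsgm]; exact hld a) k, hsgm, ← hq]
    have h1 : ∑ j, (Ws C.H (C.U x) x k j + x j * pd k C.U x) * pd j.succ (l a) q =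
        ∑ j, Ws C.H (C.U x) x k j * pd j.succ (l a) q +
          pd k C.U x * ∑ j : Fin n, x j * pd j.succ (l a) q := by
      rw [Finset.mul_sum, ← Finset.sum_add_distrib]
      exact Finset.sum_congr rfl fun j _ => by ring
    rw [h1, geo a r hr]
    ring
  have key : ∀ i k, ∑ j, Ws C.H (C.U x) x k j * pd j.succ (l i.succ) q =
      (∑ j, Ws C.H (C.U x) x k j * pd j.succ (l 0) q) * x i + ζ * pr x k i := by
    intro i k
    have h0 := dl i.succ k (x i) (hlx i)
    have h00 := dl 0 k 1 hl0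
    rw [pd_congr' (f := fun z => l 0 (pt (- C.U z) (sgm C z)) * (z i / ‖z‖))
      (fun z hz => l_sgm nor hz i) hx0 k] at h0
    have hΦd : DifferentiableAt ℝ (fun z : E n => pt (- C.U z) (sgm C z)) x := by
      rw [differentiableAt_euclidean]
      intro a
      refine Fin.cases ?_ (fun i => ?_) a
      · exact ((smU C).diff hx0).neg
      · exact (sm_sgi C i).diff hx0
    have h1 : DifferentiableAt ℝ (fun z => l 0 (pt (- C.U z) (sgm C z))) x := by
      have h2 : DifferentiableAt ℝ (l 0) (pt (- C.U x) (sgm C x)) := by rw [hsgm]; exact hld 0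
      exact DifferentiableAt.comp (g := l 0) (f := fun z : E n => pt (- C.U z) (sgm C z)) x h2 hΦd
    have h2 : DifferentiableAt ℝ (fun z : E n => z i / ‖z‖) x := (KSN.X2.Sm.ndir i).diff hx0
    rw [Vale.Agent.P366.pd_mul h1 h2, KSN.X2.pd_ndir hx, h00, hsgm, ← hq, hx] at h0
    unfold pr
    linear_combination -h0
  -- multiply by the adjugate
  set M := Ms C.H (C.U x) x with hM
  have hadj : M.adjugate * M = M.det • (1 : Matrix (Fin n) (Fin n) ℝ) := Matrix.adjugate_mul M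
  have hMx : M.mulVec x = x := by
    funext j
    exact Ms_mul_x C hx j
  have hadjx : M.adjugate.mulVec x = M.det • (x : Fin n → ℝ) := by
    have h1 : M.adjugate.mulVec (M.mulVec x) = M.det • (x : Fin n → ℝ) := by
      rw [Matrix.mulVec_mulVec, hadj, Matrix.smul_mulVec, Matrix.one_mulVec]
    rwa [hMx] at h1
  have hA1 : ∀ m j, ∑ k, M.adjugate m k * Ws C.H (C.U x) x k j = M.det * pr x m j := by
    intro m j
    have h1 := congrFun (congrFun hadj m) j
    rw [Matrix.mul_apply, Matrix.smul_apply, Matrix.one_apply, smul_eq_mul] at h1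
    have h2 := congrFun hadjx m
    simp only [Matrix.mulVec, dotProduct, Pi.smul_apply, smul_eq_mul] at h2
    have h3 : ∑ k, M.adjugate m k * M k j = ∑ k, M.adjugate m k * Ws C.H (C.U x) x k j +
        (∑ k, M.adjugate m k * x k) * x j := by
      rw [Finset.sum_mul, ← Finset.sum_add_distrib]
      refine Finset.sum_congr rfl fun k _ => ?_
      rw [hM]; unfold Ms; rw [Matrix.of_apply]; ring
    rw [h3, h2] at h1
    unfold pr kd
    linarith
  have hxx : ∑ i, x i * x i = 1 := KSN.sum_xx hx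
  have hA2 : ∑ i, ∑ k, M.adjugate i k * pr x k i = M.adjugate.trace - M.det := by
    have h1 : ∀ i, ∑ k, M.adjugate i k * pr x k i = M.adjugate i i - M.det * (x i * x i) := by
      intro i
      have h2 := congrFun hadjx i
      simp only [Matrix.mulVec, dotProduct, Pi.smul_apply, smul_eq_mul] at h2
      have h3 : ∀ k, M.adjugate i k * pr x k i = (if k = i then M.adjugate i k else 0) -
          (M.adjugate i k * x k) * x i := by
        intro k; unfold pr kd; split_ifs <;> ring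
      simp only [h3, Finset.sum_sub_distrib, Finset.sum_ite_eq', Finset.mem_univ, if_true,
        ← Finset.sum_mul, h2]
      ring
    simp only [h1, Finset.sum_sub_distrib, ← Finset.mul_sum, hxx]
    unfold Matrix.trace Matrix.diag
    ring
  have e1 : ∀ i, ∑ j, M.det * pr x i j * pd j.succ (l i.succ) q =
      (∑ j, M.det * pr x i j * pd j.succ (l 0) q) * x i + ζ * ∑ k, M.adjugate i k * pr x k i := by
    intro i
    have h1 : ∑ k, M.adjugate i k * ∑ j, Ws C.H (C.U x) x k j * pd j.succ (l i.succ) q =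
        ∑ k, M.adjugate i k * ((∑ j, Ws C.H (C.U x) x k j * pd j.succ (l 0) q) * x i +
          ζ * pr x k i) := Finset.sum_congr rfl fun k _ => by rw [key i k]
    have h2 : ∀ a, ∑ k, M.adjugate i k * ∑ j, Ws C.H (C.U x) x k j * pd j.succ (l a) q =
        ∑ j, M.det * pr x i j * pd j.succ (l a) q := by
      intro a
      simp only [← hA1, Finset.mul_sum, Finset.sum_mul]
      rw [Finset.sum_comm]
      exact Finset.sum_congr rfl fun j _ => Finset.sum_congr rfl fun k _ => by ring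
    rw [← h2, h1, ← h2, Finset.mul_sum, Finset.sum_mul, ← Finset.sum_add_distrib]
    exact Finset.sum_congr rfl fun k _ => by ring
  have e2 : ∑ i, ∑ j, M.det * pr x i j * pd j.succ (l i.succ) q =
      M.det * (lth sgn l q - κ) := by
    have h1 : ∀ i, ∑ j, M.det * pr x i j * pd j.succ (l i.succ) q =
        M.det * (pd i.succ (l i.succ) q - x i * pd 0 (l i.succ) q - κ * (x i * x i)) := by
      intro i
      have h3 : M.det * (pd i.succ (l i.succ) q - x i * pd 0 (l i.succ) q - κ * (x i * x i)) =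
          M.det * (pd i.succ (l i.succ) q - x i * (pd 0 (l i.succ) q + κ * x i)) := by ring
      rw [h3, ← geo i.succ (x i) (hlx i)]
      have h2 : ∀ j, M.det * pr x i j * pd j.succ (l i.succ) q =
          M.det * ((if i = j then pd j.succ (l i.succ) q else 0) -
            x i * (x j * pd j.succ (l i.succ) q)) := by
        intro j; unfold pr kd; split_ifs <;> ring
      simp only [h2, ← Finset.mul_sum, Finset.sum_sub_distrib, Finset.sum_ite_eq, Finset.mem_univ,
        if_true]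
    simp only [h1, ← Finset.mul_sum, Finset.sum_sub_distrib, nul, hxx]
    unfold lth
    rw [Fin.sum_univ_succ]
    simp only [s0, ss, one_mul, hspd]
    ring
  have e3 : ∑ i, (∑ j, M.det * pr x i j * pd j.succ (l 0) q) * x i = 0 := by
    simp only [Finset.sum_mul]
    rw [Finset.sum_comm]
    refine Finset.sum_eq_zero fun j _ => ?_
    have h1 : ∀ i, M.det * pr x i j * pd j.succ (l 0) q * x i =
        M.det * pd j.succ (l 0) q * ((if i = j then x i else 0) - x j * (x i * x i)) := by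
      intro i; unfold pr kd; split_ifs <;> ring
    simp only [h1, ← Finset.mul_sum, Finset.sum_sub_distrib, Finset.sum_ite_eq', Finset.mem_univ,
      if_true, hxx]
    ring
  have e4 : ∑ i, ∑ j, M.det * pr x i j * pd j.succ (l i.succ) q =
      ζ * (M.adjugate.trace - M.det) := by
    simp only [e1, Finset.sum_add_distrib, e3, ← Finset.mul_sum, hA2]
    ring
  rw [e2] at e4
  exact e4

lemma f_sgm_n (bdr : ∀ x, x ≠ 0 → ‖x‖ = C.U x → f (Psi C.H x) = - C.U x) {z : E n} (hz : z ≠ 0) :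
    f (sgm C z) = - C.U z := by
  obtain ⟨z', h0, h1, h2, h3, -⟩ := bdr_pt C hz
  rw [← h3, bdr z' h0 h1, h2]

lemma f_first_n (smf : ContDiffAt ℝ ∞ f (Y C.H x (C.U x)))
    (bdr : ∀ x, x ≠ 0 → ‖x‖ = C.U x → f (Psi C.H x) = - C.U x) (hx : ‖x‖ = 1)
    (k : Fin n) : ∑ j, (Ws C.H (C.U x) x k j + x j * pd k C.U x) * pd j f (Y C.H x (C.U x)) =
      - pd k C.U x := by
  have hx0 := ne_zero_of_one hx
  have hfd : DifferentiableAt ℝ f (sgm C x) := by
    rw [sgm_one C hx]; exact cdd smf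
  have hs : ∀ i : Fin n, (fun z : E n => sgm C z i) = sgi C i := fun _ => rfl
  have h1 := pd_comp (Φ := sgm C) hfd (fun i => by rw [hs]; exact (sm_sgi C i).diff hx0) k
  have h2 : pd k (fun z => f (sgm C z)) x = - pd k C.U x := by
    rw [pd_congr' (f := fun z => - C.U z) (fun z hz => f_sgm_n bdr hz) hx0 k, pd_neg']
  rw [← h2, h1]
  refine Finset.sum_congr rfl fun j _ => ?_
  rw [hs, pd_sgi C hx, sgm_one C hx]
  congr 1
  unfold Ws pr
  ring

/-- the differential of `f` on the boundary surface -/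
theorem pd_f_bdr_n (smf : ContDiffAt ℝ ∞ f (Y C.H x (C.U x)))
    (bdr : ∀ x, x ≠ 0 → ‖x‖ = C.U x → f (Psi C.H x) = - C.U x) (hx : ‖x‖ = 1)
    (i : Fin n) : pd i f (Y C.H x (C.U x)) =
      (∑ j, x j * pd j f (Y C.H x (C.U x))) * x i -
        (1 + ∑ j, x j * pd j f (Y C.H x (C.U x))) * C.toDat.b x i := by
  set F : Fin n → ℝ := fun j => pd j f (Y C.H x (C.U x)) with hF
  set t := ∑ j, x j * F j with ht
  set M := Ms C.H (C.U x) x with hM
  set u : Fin n → ℝ := fun j => pd j C.U x with hu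
  have hd : IsUnit M.det := (dts_pos C hx le_rfl).ne'.isUnit
  have hMx : M.mulVec x = x := by
    funext j
    exact Ms_mul_x C hx j
  have hMx' : M⁻¹.mulVec x = x := by
    conv_lhs => rw [← hMx]
    rw [Matrix.mulVec_mulVec, Matrix.nonsing_inv_mul _ hd, Matrix.one_mulVec]
  have h1 : M.mulVec F = t • (x : Fin n → ℝ) - (1 + t) • u := by
    funext k
    have h2 := f_first_n smf bdr hx k
    simp only [add_mul, Finset.sum_add_distrib] at h2
    have h3 : ∑ j, x j * pd k C.U x * pd j f (Y C.H x (C.U x)) = pd k C.U x * t := by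
      rw [ht, Finset.mul_sum]
      exact Finset.sum_congr rfl fun j _ => by rw [hF]; ring
    rw [h3] at h2
    have h4 : M.mulVec F k = ∑ j, Ws C.H (C.U x) x k j * pd j f (Y C.H x (C.U x)) + x k * t := by
      have h5 : M.mulVec F k = ∑ j, M k j * F j := rfl
      rw [h5, ht, Finset.mul_sum, ← Finset.sum_add_distrib]
      refine Finset.sum_congr rfl fun j _ => ?_
      rw [hM, hF]; unfold Ms; rw [Matrix.of_apply]; ring
    rw [h4]
    simp only [Pi.sub_apply, Pi.smul_apply, smul_eq_mul, hu]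
    linarith
  have h2 : F = t • (x : Fin n → ℝ) - (1 + t) • C.toDat.b x := by
    have h3 : M⁻¹.mulVec (M.mulVec F) = F := by
      rw [Matrix.mulVec_mulVec, Matrix.nonsing_inv_mul _ hd, Matrix.one_mulVec]
    rw [← h3, h1, Matrix.mulVec_sub, Matrix.mulVec_smul, Matrix.mulVec_smul, hMx', b_eq C hx]
  exact congrFun h2 i

/-- **the boundary term** -/
theorem r_Z_bdr (smf : ContDiffAt ℝ ∞ f (Y C.H x (C.U x)))
    (bdr : ∀ x, x ≠ 0 → ‖x‖ = C.U x → f (Psi C.H x) = - C.U x)
    (smV : ContDiffAt ℝ ∞ V (pt (- C.U x) (Y C.H x (C.U x))))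
    (sml : ∀ a, ContDiffAt ℝ ∞ (l a) (pt (- C.U x) (Y C.H x (C.U x))))
    (null : ∀ᶠ q in 𝓝 (pt (- C.U x) (Y C.H x (C.U x))), ∑ a, sgn a * l a q ^ 2 = 0)
    (fut : 0 < l 0 (pt (- C.U x) (Y C.H x (C.U x))))
    (hg : V (pt (- C.U x) (Y C.H x (C.U x))) = 0 ∨ ∃ κ : ℝ, ∀ a,
      acc l a (pt (- C.U x) (Y C.H x (C.U x))) = κ * l a (pt (- C.U x) (Y C.H x (C.U x))))
    (nor : ∀ x, x ≠ 0 → ‖x‖ = C.U x → ∀ i : Fin n,
      l i.succ (pt (- C.U x) (Psi C.H x)) = l 0 (pt (- C.U x) (Psi C.H x)) * (x i / ‖x‖))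
    (hx : ‖x‖ = 1) (b : Fin (n + 1)) :
    dts C.H (C.U x) x * ∑ i, Zf l V f b i (Y C.H x (C.U x)) * (x i - C.toDat.b x i) =
      -(1 / 2 * (V (pt (- C.U x) (Y C.H x (C.U x))) * l 0 (pt (- C.U x) (Y C.H x (C.U x))) ^ 2 *
        sg C.H (C.U x) x)) * lx x b := by
  have hx0 := ne_zero_of_one hx
  have hsgm := sgm_one C hx
  have hfb : f (Y C.H x (C.U x)) = - C.U x := by rw [← hsgm]; exact f_sgm_n bdr hx0
  set q := pt (- C.U x) (Y C.H x (C.U x)) with hq
  set ζ := l 0 q with hζ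
  obtain ⟨U, hqU, hU⟩ := toKNg smV sml null
  have hζp : 0 < ζ := fut
  have s0 : sgn (0 : Fin (n + 1)) = -1 := rfl
  have ss : ∀ i : Fin n, sgn i.succ = 1 := fun i => by simp [sgn, Fin.succ_ne_zero]
  have hl : ∀ a, l a q = ζ * lx x a := by
    intro a
    refine Fin.cases ?_ (fun i => ?_) a
    · simp [lx, hζ]
    · have h1 := l_sgm nor hx0 i
      rw [hsgm, hx, div_one] at h1
      simpa [lx] using h1
  set t := ∑ j, x j * pd j f (Y C.H x (C.U x)) with ht
  set τ := 1 + t with hτ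
  set nu : Fin (n + 1) → ℝ := Fin.cons 1 fun j => - pd j f (Y C.H x (C.U x)) with hnu
  set mm : Fin (n + 1) → ℝ := Fin.cons 0 fun i => x i - C.toDat.b x i with hmm
  have hnm : ∀ a, nu a = lx x a - τ * mm a := by
    intro a
    refine Fin.cases ?_ (fun i => ?_) a
    · simp [hnu, hmm, lx]
    · simp only [hnu, hmm, lx, Fin.cons_succ]
      rw [pd_f_bdr_n smf bdr hx i]
      ring
  set W : Fin (n + 1) → Fin (n + 1) → ℝ := fun a c => UL sgn l V a c b q with hW
  have hanti : ∀ a c, W a c = - W c a := fun a c => UL_anti sgn l V a c b q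
  have hZ : ∑ i, Zf l V f b i (Y C.H x (C.U x)) * (x i - C.toDat.b x i) =
      ∑ a, ∑ c, W a c * nu a * mm c := by
    have h1 : ∀ a c, Up l V a c b (pt (f (Y C.H x (C.U x))) (Y C.H x (C.U x))) = W a c := by
      intro a c
      rw [hfb, ← hq]; exact Upn_eq hU.toKL0 hqU a c b
    rw [Finset.sum_comm, Fin.sum_univ_succ]
    have h2 : ∑ a, W a 0 * nu a * mm 0 = 0 := by
      refine Finset.sum_eq_zero fun a _ => ?_
      simp [hmm]
    rw [h2, zero_add]
    refine Finset.sum_congr rfl fun i _ => ?_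
    unfold Zf
    simp only [h1]
    rw [Fin.sum_univ_succ]
    simp only [hnu, hmm, Fin.cons_zero, Fin.cons_succ]
    rw [sub_mul, Finset.sum_mul, sub_eq_add_neg, ← Finset.sum_neg_distrib]
    congr 1
    · ring
    · exact Finset.sum_congr rfl fun j _ => by ring
  have hmmz : ∑ a, ∑ c, W a c * mm a * mm c = 0 := by
    have h1 : ∑ a, ∑ c, W a c * mm a * mm c = - ∑ a, ∑ c, W a c * mm a * mm c := by
      conv_lhs => rw [Finset.sum_comm]
      rw [← Finset.sum_neg_distrib]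
      refine Finset.sum_congr rfl fun a _ => ?_
      rw [← Finset.sum_neg_distrib]
      exact Finset.sum_congr rfl fun c _ => by rw [hanti c a]; ring
    linarith
  have hxb : ∑ i, x i * C.toDat.b x i = 0 := C.toDat.b_x hx0
  have hxx : ∑ i, x i * x i = 1 := KSN.sum_xx hx
  have hml : ∑ c, mm c * (sgn c * l c q) = ζ := by
    rw [Fin.sum_univ_succ]
    simp only [hmm, Fin.cons_zero, Fin.cons_succ, zero_mul, zero_add, ss, one_mul, hl, lx]
    have h1 : ∀ i : Fin n, (x i - C.toDat.b x i) * (ζ * x i) =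
        ζ * (x i * x i) - ζ * (x i * C.toDat.b x i) := fun i => by ring
    simp only [h1, Finset.sum_sub_distrib, ← Finset.mul_sum, hxx, hxb]
    ring
  have hwl : ∑ a, ∑ c, W a c * l a q * mm c =
      - (V q * (lth sgn l q * l b q - acc l b q) / 2 * ζ) := by
    rw [Finset.sum_comm]
    have h1 : ∀ c, ∑ a, W a c * l a q * mm c =
        - (V q * (lth sgn l q * l b q - acc l b q) / 2 * (mm c * (sgn c * l c q))) := by
      intro c
      have h2 := hU.UL_l hqU c b
      have h3 : ∑ a, W a c * l a q * mm c = - ((∑ a, UL sgn l V c a b q * l a q) * mm c) := by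
        rw [Finset.sum_mul, ← Finset.sum_neg_distrib]
        exact Finset.sum_congr rfl fun a _ => by rw [hanti a c]; ring
      rw [h3, h2, acc_eq]
      ring
    simp only [h1, Finset.sum_neg_distrib, ← Finset.mul_sum, hml]
  have hfin : ζ * ∑ a, ∑ c, W a c * nu a * mm c =
      ζ * (- (V q * (lth sgn l q * l b q - acc l b q) / 2)) := by
    have h1 : ζ * ∑ a, ∑ c, W a c * nu a * mm c =
        ∑ a, ∑ c, W a c * l a q * mm c - ζ * τ * ∑ a, ∑ c, W a c * mm a * mm c := by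
      rw [Finset.mul_sum, Finset.mul_sum, ← Finset.sum_sub_distrib]
      refine Finset.sum_congr rfl fun a _ => ?_
      rw [Finset.mul_sum, Finset.mul_sum, ← Finset.sum_sub_distrib]
      refine Finset.sum_congr rfl fun c _ => ?_
      rw [hnm, hl]; ring
    rw [h1, hmmz, hwl]; ring
  rw [hZ, mul_left_cancel₀ hζp.ne' hfin]
  rcases hg with h0 | ⟨κ, hκ⟩
  · rw [h0]; ring
  · have hth := r_theta_bdr smV sml null fut hκ nor hx
    rw [← hq, ← hζ] at hth
    rw [hκ b, hl b]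
    have : dts C.H (C.U x) x * -(V q * (lth sgn l q * (ζ * lx x b) - κ * (ζ * lx x b)) / 2) =
        - (V q * (ζ * lx x b) / 2) * (dts C.H (C.U x) x * (lth sgn l q - κ)) := by ring
    rw [this, hth]
    ring

end Vale.Agent.P366.KSL
end
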