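import Vale.Agent.P366.H896.L.X1c

/-! Metrics `η + V l ⊗ l` with `l` null: the Einstein tensor. -/

open MeasureTheory Metric Filter Topology Set
open scoped ContDiff

noncomputable section
namespace Vale.Agent.P366.H896
open Vale.Agent.P366.Stmt Vale.Agent.P366.T2

variable {m : ℕ}

/-- `g = η + V l ⊗ l` on the open set `U` with `l` null. -/
structure KNg (e : Fin m → ℝ) (g : Field m) (l : Fin m → E m → ℝ) (V : E m → ℝ)
    (U : Set (E m)) : Prop extends KL0 e g l V U where
  null : ∀ x ∈ U, ∑ a, e a * (l a x * l a x) = 0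

/-- the acceleration `a_b = k^c ∂_c l_b` -/
def acc (e : Fin m → ℝ) (l : Fin m → E m → ℝ) (b : Fin m) (x : E m) : ℝ := lk e l (l b) x

/-- `|a|²` -/
def ac2 (e : Fin m → ℝ) (l : Fin m → E m → ℝ) (x : E m) : ℝ :=
  ∑ b, e b * (acc e l b x * acc e l b x)

/-- `a^d ∂_d F` -/
def ak (e : Fin m → ℝ) (l : Fin m → E m → ℝ) (F : E m → ℝ) (x : E m) : ℝ :=
  ∑ d, e d * (acc e l d x * pd d F x)

/-- `j_b = ∂_d h^d_b = φ l_b + V a_b` -/
def jn (e : Fin m → ℝ) (l : Fin m → E m → ℝ) (V : E m → ℝ) (b : Fin m) (x : E m) : ℝ :=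
  lph e l V x * l b x + V x * acc e l b x

/-- the quadratic part of the Ricci tensor -/
def Qd (e : Fin m → ℝ) (l : Fin m → E m → ℝ) (V : E m → ℝ) (a b : Fin m) (x : E m) : ℝ :=
  ((lk e l V x * l a x + V x * acc e l a x) * (lk e l V x * l b x + V x * acc e l b x) +
    2 * V x * (l a x * l b x) * ak e l V x +
    V x ^ 2 * (l a x * ak e l (l b) x + l b x * ak e l (l a) x) +
    V x ^ 3 * ac2 e l x * (l a x * l b x) -
    V x ^ 2 * (l a x * l b x) * (lS e l x - lT e l x)) / 2

/-- `D h_{ab}` -/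
def Dh (e : Fin m → ℝ) (l : Fin m → E m → ℝ) (V : E m → ℝ) (a b : Fin m) (x : E m) : ℝ :=
  lk e l V x * (l a x * l b x) + V x * (acc e l a x * l b x + l a x * acc e l b x)

/-- `D D h_{ab}` -/
def DDh (e : Fin m → ℝ) (l : Fin m → E m → ℝ) (V : E m → ℝ) (a b : Fin m) (x : E m) : ℝ :=
  lk e l (lk e l V) x * (l a x * l b x) +
    2 * (lk e l V x * (acc e l a x * l b x + l a x * acc e l b x)) +
    V x * (lk e l (acc e l a) x * l b x + 2 * (acc e l a x * acc e l b x) +
      l a x * lk e l (acc e l b) x)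

/-- the difference of the Ricci tensor and the linearized one -/
def Qn (e : Fin m → ℝ) (l : Fin m → E m → ℝ) (V : E m → ℝ) (a b : Fin m) (x : E m) : ℝ :=
  (lph e l V x * Dh e l V a b x + V x * DDh e l V a b x) / 2 - Qd e l V a b x

namespace KL0

variable {e : Fin m → ℝ} {g : Field m} {l : Fin m → E m → ℝ} {V : E m → ℝ} {U : Set (E m)}
  (h : KL0 e g l V U)
include h

lemma sacc (b : Fin m) : CR 4 U (acc e l b) := by
  have e1 : acc e l b = fun x => ∑ a, e a * (l a x * pd a (l b) x) := rfl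
  rw [e1]
  exact CR.sum _ fun a => (CR.const _).mul (((h.sl a).le (by norm_num)).mul (h.sl1' a b))

lemma sacc0 (b : Fin m) : CU U (acc e l b) := (h.sacc b).le (by norm_num)
lemma sk0 : CU U (lk e l V) := h.sk'.le (by norm_num)
lemma sph0 : CU U (lph e l V) := h.sph'.le (by norm_num)

omit h in
lemma lk_hp {F : E m → ℝ} {d : Fin m → ℝ} {x : E m} (hF : ∀ a, HP a F (d a) x) :
    lk e l F x = ∑ a, e a * (l a x * d a) := by
  unfold lk
  exact Finset.sum_congr rfl fun a _ => by rw [(hF a).pd]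

lemma lk_hl {x : E m} (hx : x ∈ U) (a b : Fin m) : lk e l (hl l V a b) x = Dh e l V a b x := by
  rw [lk_hp (fun c => h.hp_hl hx c a b)]
  unfold Dh acc lk
  simp only [Finset.sum_mul, Finset.mul_sum, ← Finset.sum_add_distrib]
  exact Finset.sum_congr rfl fun c _ => by ring

lemma lk_Dh {x : E m} (hx : x ∈ U) (a b : Fin m) : lk e l (Dh e l V a b) x =
    DDh e l V a b x := by
  have h1 : ∀ c, HP c (Dh e l V a b) (pd c (lk e l V) x * (l a x * l b x) +
      lk e l V x * (pd c (l a) x * l b x + l a x * pd c (l b) x) +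
      (pd c V x * (acc e l a x * l b x + l a x * acc e l b x) +
        V x * ((pd c (acc e l a) x * l b x + acc e l a x * pd c (l b) x) +
          (pd c (l a) x * acc e l b x + l a x * pd c (acc e l b) x)))) x := fun c =>
    ((h.sk0.hp hx c).mul (((h.sl0 a).hp hx c).mul ((h.sl0 b).hp hx c))).add
      ((h.sV0.hp hx c).mul ((((h.sacc0 a).hp hx c).mul ((h.sl0 b).hp hx c)).add
        (((h.sl0 a).hp hx c).mul ((h.sacc0 b).hp hx c))))
  rw [lk_hp h1]
  have e1 : ∀ c, e c * (l c x * (pd c (lk e l V) x * (l a x * l b x) +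
      lk e l V x * (pd c (l a) x * l b x + l a x * pd c (l b) x) +
      (pd c V x * (acc e l a x * l b x + l a x * acc e l b x) +
        V x * ((pd c (acc e l a) x * l b x + acc e l a x * pd c (l b) x) +
          (pd c (l a) x * acc e l b x + l a x * pd c (acc e l b) x))))) =
      (e c * (l c x * pd c (lk e l V) x)) * (l a x * l b x) +
      (e c * (l c x * pd c (l a) x)) * (lk e l V x * l b x + V x * acc e l b x) +
      (e c * (l c x * pd c (l b) x)) * (lk e l V x * l a x + V x * acc e l a x) +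
      (e c * (l c x * pd c V x)) * (acc e l a x * l b x + l a x * acc e l b x) +
      (e c * (l c x * pd c (acc e l a) x)) * (V x * l b x) +
      (e c * (l c x * pd c (acc e l b) x)) * (V x * l a x) := fun c => by ring
  simp only [e1, Finset.sum_add_distrib, ← Finset.sum_mul]
  have f1 : ∀ F : E m → ℝ, ∑ c, e c * (l c x * pd c F x) = lk e l F x := fun _ => rfl
  simp only [f1]
  have f2 : ∀ b, lk e l (l b) x = acc e l b x := fun _ => rfl
  simp only [f2]
  unfold DDh
  ring

/-- `∂_d h^d_c = j_c` -/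
lemma div_hn {x : E m} (hx : x ∈ U) (c : Fin m) :
    ∑ d, e d * pd d (hl l V c d) x = jn e l V c x := by
  have e1 : ∀ d, e d * pd d (hl l V c d) x = (e d * (l d x * pd d V x)) * l c x +
      V x * (e d * (l d x * pd d (l c) x)) + (V x * l c x) * (e d * pd d (l d) x) := by
    intro d; rw [(h.hp_hl hx d c d).pd]; ring
  simp only [e1, Finset.sum_add_distrib, ← Finset.sum_mul, ← Finset.mul_sum]
  unfold jn lph acc lk lth; ring

lemma hp_jn {x : E m} (hx : x ∈ U) (a b : Fin m) : HP a (jn e l V b)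
    (pd a (lph e l V) x * l b x + lph e l V x * pd a (l b) x +
      (pd a V x * acc e l b x + V x * pd a (acc e l b) x)) x :=
  ((h.sph0.hp hx a).mul ((h.sl0 b).hp hx a)).add ((h.sV0.hp hx a).mul ((h.sacc0 b).hp hx a))

/-- `∂_c ∂_a h^c_b = ∂_a j_b` -/
lemma div2n {x : E m} (hx : x ∈ U) (a b : Fin m) :
    ∑ c, e c * pd c (pd a (hl l V c b)) x = pd a (jn e l V b) x := by
  have e1 : HP a (fun y => ∑ c, e c * pd c (hl l V b c) y)
      (∑ c, e c * pd a (pd c (hl l V b c)) x) x :=
    HP.sum _ fun c _ => ((h.shl1 c b c).hp hx a).const_mul _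
  have e2 := (hp_congrU h.op hx (fun y hy => (h.div_hn hy b).symm) e1).pd
  rw [e2]
  refine Finset.sum_congr rfl fun c _ => ?_
  rw [hl_symm l V c b, pd_comm h.op (h.shl0 b c) hx a c]

lemma Rln_eq {x : E m} (hx : x ∈ U) (a b : Fin m) : Rl e l V a b x =
    (pd a (jn e l V b) x + pd b (jn e l V a) x -
      ∑ c, e c * pd c (pd c (hl l V a b)) x) / 2 := by
  unfold Rl
  rw [h.div2n hx, h.div2n hx]

lemma Rln_symm {x : E m} (hx : x ∈ U) (a b : Fin m) : Rl e l V a b x = Rl e l V b a x := by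
  rw [h.Rln_eq hx, h.Rln_eq hx, hl_symm l V a b]; ring

/-- `∂_b a^b = k(θ) + ∂_a l_b ∂^b l^a` -/
lemma div_acc {x : E m} (hx : x ∈ U) : ∑ b, e b * pd b (acc e l b) x =
    lk e l (lth e l) x + lT e l x := by
  have h1 : ∀ b, HP b (acc e l b) (∑ c, e c * (pd b (l c) x * pd c (l b) x +
      l c x * pd b (pd c (l b)) x)) x := fun b => by
    have e1 : acc e l b = fun x => ∑ a, e a * (l a x * pd a (l b) x) := rfl
    rw [e1]
    exact HP.sum _ fun c _ => (((h.sl0 c).hp hx b).mul ((h.sl1 c b).hp hx b)).const_mul (e c)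
  have h2 : ∀ a, HP a (lth e l) (∑ c, e c * pd a (pd c (l c)) x) x := fun a =>
    HP.sum _ fun c _ => ((h.sl1 c c).hp hx a).const_mul (e c)
  rw [lk_hp h2]
  simp only [fun b => (h1 b).pd]
  unfold lT
  simp only [mul_add, Finset.mul_sum, Finset.sum_add_distrib]
  rw [add_comm]
  congr 1
  rw [Finset.sum_comm]
  refine Finset.sum_congr rfl fun b _ => Finset.sum_congr rfl fun c _ => ?_
  rw [h.l2 hx b c]
  ring

/-- `k(φ)` -/
lemma kn_ph {x : E m} (hx : x ∈ U) : lk e l (lph e l V) x =
    lk e l (lk e l V) x + lk e l V x * lth e l x + V x * lk e l (lth e l) x := by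
  have h2 : ∀ a, HP a (lph e l V) (pd a (lk e l V) x +
      (pd a V x * lth e l x + V x * pd a (lth e l) x)) x := fun a =>
    (h.sk0.hp hx a).add ((h.sV0.hp hx a).mul ((h.sth'.le (by norm_num) : CU U _).hp hx a))
  rw [lk_hp h2]
  unfold lk
  rw [Finset.sum_mul, Finset.mul_sum, ← Finset.sum_add_distrib, ← Finset.sum_add_distrib]
  exact Finset.sum_congr rfl fun a _ => by ring

end KL0

namespace KNg

variable {e : Fin m → ℝ} {g : Field m} {l : Fin m → E m → ℝ} {V : E m → ℝ} {U : Set (E m)}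
  (h : KNg e g l V U)
include h

/-- first derivative of the null condition -/
lemma null1 {x : E m} (hx : x ∈ U) (b : Fin m) :
    ∑ a, e a * (l a x * pd b (l a) x) = 0 := by
  have h1 : HP b (fun y => ∑ a, e a * (l a y * l a y))
      (∑ a, e a * (pd b (l a) x * l a x + l a x * pd b (l a) x)) x :=
    HP.sum _ fun a _ => (((h.sl0 a).hp hx b).mul ((h.sl0 a).hp hx b)).const_mul (e a)
  have h2 : HP b (fun y => ∑ a, e a * (l a y * l a y)) 0 x :=
    hp_congrU h.op hx h.null (HP.const b 0 x)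
  have h3 := h1.pd.symm.trans h2.pd
  have h4 : ∑ a, e a * (pd b (l a) x * l a x + l a x * pd b (l a) x) =
      2 * ∑ a, e a * (l a x * pd b (l a) x) := by
    rw [Finset.mul_sum]; exact Finset.sum_congr rfl fun a _ => by ring
  linarith

/-- second derivative of the null condition -/
lemma null2 {x : E m} (hx : x ∈ U) (b c : Fin m) :
    ∑ a, e a * (l a x * pd b (pd c (l a)) x) =
      - ∑ a, e a * (pd b (l a) x * pd c (l a) x) := by
  have h1 : HP b (fun y => ∑ a, e a * (l a y * pd c (l a) y))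
      (∑ a, e a * (pd b (l a) x * pd c (l a) x + l a x * pd b (pd c (l a)) x)) x :=
    HP.sum _ fun a _ => (((h.sl0 a).hp hx b).mul ((h.sl1 c a).hp hx b)).const_mul (e a)
  have h2 : HP b (fun y => ∑ a, e a * (l a y * pd c (l a) y)) 0 x :=
    hp_congrU h.op hx (fun y hy => h.null1 hy c) (HP.const b 0 x)
  have h3 := h1.pd.symm.trans h2.pd
  simp only [mul_add, Finset.sum_add_distrib] at h3
  linarith

/-- `a · k = 0` -/
lemma k_acc {x : E m} (hx : x ∈ U) : ∑ b, e b * (l b x * acc e l b x) = 0 := by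
  unfold acc lk
  have e1 : ∀ b, e b * (l b x * ∑ c, e c * (l c x * pd c (l b) x)) =
      ∑ c, (e c * l c x) * (e b * (l b x * pd c (l b) x)) := by
    intro b; rw [Finset.mul_sum, Finset.mul_sum]
    exact Finset.sum_congr rfl fun c _ => by ring
  simp only [e1]
  rw [Finset.sum_comm]
  simp only [← Finset.mul_sum, h.null1 hx, mul_zero, Finset.sum_const_zero]

/-- derivative of `a · k = 0` -/
lemma k_acc1 {x : E m} (hx : x ∈ U) (c : Fin m) : ∑ b, e b * (l b x * pd c (acc e l b) x) =
    - ∑ b, e b * (pd c (l b) x * acc e l b x) := by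
  have h1 : HP c (fun y => ∑ b, e b * (l b y * acc e l b y))
      (∑ b, e b * (pd c (l b) x * acc e l b x + l b x * pd c (acc e l b) x)) x :=
    HP.sum _ fun b _ => (((h.sl0 b).hp hx c).mul ((h.sacc0 b).hp hx c)).const_mul (e b)
  have h2 : HP c (fun y => ∑ b, e b * (l b y * acc e l b y)) 0 x :=
    hp_congrU h.op hx (fun y hy => h.k_acc hy) (HP.const c 0 x)
  have h3 := h1.pd.symm.trans h2.pd
  simp only [mul_add, Finset.sum_add_distrib] at h3
  linarith

/-- `k · D a = - |a|²` -/
lemma k_Dacc {x : E m} (hx : x ∈ U) : ∑ b, e b * (l b x * lk e l (acc e l b) x) =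
    - ac2 e l x := by
  have h1 : ∑ c, (e c * l c x) * ∑ b, e b * (l b x * pd c (acc e l b) x) =
      ∑ c, (e c * l c x) * (- ∑ b, e b * (pd c (l b) x * acc e l b x)) :=
    Finset.sum_congr rfl fun c _ => by rw [h.k_acc1 hx c]
  have h2 : ∑ c, (e c * l c x) * ∑ b, e b * (l b x * pd c (acc e l b) x) =
      ∑ b, e b * (l b x * lk e l (acc e l b) x) := by
    unfold lk
    simp only [Finset.mul_sum]
    rw [Finset.sum_comm]
    exact Finset.sum_congr rfl fun b _ => Finset.sum_congr rfl fun c _ => by ring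
  have h3 : ∑ c, (e c * l c x) * (- ∑ b, e b * (pd c (l b) x * acc e l b x)) =
      - ac2 e l x := by
    unfold ac2
    have e1 : ∀ b, e b * (acc e l b x * acc e l b x) =
        ∑ c, (e c * l c x) * (e b * (pd c (l b) x * acc e l b x)) := by
      intro b
      have : acc e l b x = ∑ c, e c * (l c x * pd c (l b) x) := rfl
      conv_lhs => rw [show e b * (acc e l b x * acc e l b x) =
        acc e l b x * (e b * acc e l b x) by ring, this, Finset.sum_mul]
      exact Finset.sum_congr rfl fun c _ => by rw [this]; ring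
    simp only [e1, mul_neg, Finset.sum_neg_distrib, Finset.mul_sum]
    rw [Finset.sum_comm]
  rw [← h2, h1, h3]

theorem chr_eq {x : E m} (hx : x ∈ U) (c a b : Fin m) :
    chr g c a b x = e c * (pd a (hl l V b c) x + pd b (hl l V a c) x - pd c (hl l V a b) x) / 2 +
      V x * (e c * l c x) * Dh e l V a b x / 2 := by
  rw [h.toKL0.chr_eq0 hx (h.null x hx) (h.null1 hx), ← h.lk_hl hx]
  rfl

/-- the flat part of the Christoffel symbols has no trace -/
lemma tr0 {x : E m} (hx : x ∈ U) (b : Fin m) : ∑ c, e c * pd b (hl l V c c) x = 0 := by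
  have e1 : ∀ c, e c * pd b (hl l V c c) x = pd b V x * (e c * (l c x * l c x)) +
      (2 * V x) * (e c * (l c x * pd b (l c) x)) := by
    intro c; rw [(h.hp_hl hx b c c).pd]; ring
  simp only [e1, Finset.sum_add_distrib, ← Finset.mul_sum, h.null x hx, h.null1 hx]
  ring

lemma k_Dh {x : E m} (hx : x ∈ U) (a : Fin m) : ∑ b, (e b * l b x) * Dh e l V a b x = 0 := by
  have e1 : ∀ b, (e b * l b x) * Dh e l V a b x =
      (lk e l V x * l a x + V x * acc e l a x) * (e b * (l b x * l b x)) +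
      (V x * l a x) * (e b * (l b x * acc e l b x)) := fun b => by unfold Dh; ring
  simp only [e1, Finset.sum_add_distrib, ← Finset.mul_sum, h.null x hx, h.k_acc hx]
  ring

lemma k_DDh {x : E m} (hx : x ∈ U) (a : Fin m) : ∑ b, (e b * l b x) * DDh e l V a b x =
    - (V x * ac2 e l x * l a x) := by
  have e1 : ∀ b, (e b * l b x) * DDh e l V a b x =
      (lk e l (lk e l V) x * l a x + 2 * lk e l V x * acc e l a x +
        V x * lk e l (acc e l a) x) * (e b * (l b x * l b x)) +
      (2 * lk e l V x * l a x + 2 * V x * acc e l a x) * (e b * (l b x * acc e l b x)) +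
      (V x * l a x) * (e b * (l b x * lk e l (acc e l b) x)) := fun b => by unfold DDh; ring
  simp only [e1, Finset.sum_add_distrib, ← Finset.mul_sum, h.null x hx, h.k_acc hx,
    h.k_Dacc hx]
  ring

lemma chr_tr {x : E m} (hx : x ∈ U) (a : Fin m) : ∑ c, chr g c a c x = 0 := by
  have e1 : ∀ c, chr g c a c x = e c * pd a (hl l V c c) x / 2 +
      (V x / 2) * ((e c * l c x) * Dh e l V a c x) := by
    intro c; rw [h.chr_eq hx, hl_symm l V a c]; ring
  simp only [e1, Finset.sum_add_distrib, ← Finset.sum_div, ← Finset.mul_sum, h.tr0 hx,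
    h.k_Dh hx]
  ring

omit h in
lemma Dh_symm (a b : Fin m) (x : E m) : Dh e l V a b x = Dh e l V b a x := by unfold Dh; ring
omit h in
lemma DDh_symm (a b : Fin m) (x : E m) : DDh e l V a b x = DDh e l V b a x := by unfold DDh; ring
omit h in
lemma Qd_symm (a b : Fin m) (x : E m) : Qd e l V a b x = Qd e l V b a x := by unfold Qd; ring
omit h in
lemma Qn_symm (a b : Fin m) (x : E m) : Qn e l V a b x = Qn e l V b a x := by
  unfold Qn; rw [Dh_symm a b, DDh_symm a b, Qd_symm a b]

lemma chr_symm {x : E m} (hx : x ∈ U) (c a b : Fin m) : chr g c a b x = chr g c b a x := by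
  rw [h.chr_eq hx, h.chr_eq hx, hl_symm l V a b, Dh_symm a b]; ring

lemma chr_tr' {x : E m} (hx : x ∈ U) (a : Fin m) : ∑ c, chr g c c a x = 0 := by
  rw [← h.chr_tr hx a]
  exact Finset.sum_congr rfl fun c _ => h.chr_symm hx c c a

lemma sDh (a b : Fin m) : CU U (Dh e l V a b) :=
  (h.sk0.mul ((h.sl0 a).mul (h.sl0 b))).add
    (h.sV0.mul (((h.sacc0 a).mul (h.sl0 b)).add ((h.sl0 a).mul (h.sacc0 b))))

lemma hp_chr {x : E m} (hx : x ∈ U) (d c a b : Fin m) : HP d (chr g c a b)
    (e c * (pd d (pd a (hl l V b c)) x + pd d (pd b (hl l V a c)) x -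
        pd d (pd c (hl l V a b)) x) * (1 / 2) +
      ((pd d V x * (e c * l c x) + V x * (e c * pd d (l c) x)) * Dh e l V a b x +
        (V x * (e c * l c x)) * pd d (Dh e l V a b) x) * (1 / 2)) x := by
  have h1 : HP d (fun y => e c * (pd a (hl l V b c) y + pd b (hl l V a c) y -
        pd c (hl l V a b) y) * (1 / 2) +
      V y * (e c * l c y) * Dh e l V a b y * (1 / 2)) _ x :=
    ((((((h.shl1 a b c).hp hx d).add ((h.shl1 b a c).hp hx d)).sub
      ((h.shl1 c a b).hp hx d)).const_mul (e c)).mul (HP.const d (1 / 2) x)).add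
    ((((h.sV0.hp hx d).mul (((h.sl0 c).hp hx d).const_mul (e c))).mul
      ((h.sDh a b).hp hx d)).mul (HP.const d (1 / 2) x))
  have h2 := hp_congrU h.op hx (fun y hy => by
    rw [h.chr_eq hy]; ring : ∀ y ∈ U, chr g c a b y = e c * (pd a (hl l V b c) y +
      pd b (hl l V a c) y - pd c (hl l V a b) y) * (1 / 2) +
      V y * (e c * l c y) * Dh e l V a b y * (1 / 2)) h1
  convert h2 using 1
  ring

/-- The divergence of the Christoffel symbols. -/
lemma div_chr {x : E m} (hx : x ∈ U) (a b : Fin m) :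
    ∑ c, pd c (chr g c a b) x = Rl e l V a b x +
      (lph e l V x * Dh e l V a b x + V x * DDh e l V a b x) / 2 := by
  have e1 : ∀ c, pd c (chr g c a b) x = (e c * pd c (pd b (hl l V c a)) x +
        e c * pd c (pd a (hl l V c b)) x - e c * pd c (pd c (hl l V a b)) x) / 2 +
      (e c * (l c x * pd c V x)) * (Dh e l V a b x / 2) +
      (e c * pd c (l c) x) * (V x * Dh e l V a b x / 2) +
      (V x / 2) * (e c * (l c x * pd c (Dh e l V a b) x)) := by
    intro c
    rw [(h.hp_chr hx c c a b).pd, hl_symm l V b c, hl_symm l V a c]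
    ring
  simp only [e1, Finset.sum_add_distrib, Finset.sum_sub_distrib, ← Finset.sum_mul,
    ← Finset.mul_sum, ← Finset.sum_div]
  have e2 : ∀ F : E m → ℝ, ∑ c, e c * (l c x * pd c F x) = lk e l F x := fun _ => rfl
  have e4 : ∑ c, e c * pd c (l c) x = lth e l x := rfl
  simp only [e2, e4]
  rw [h.lk_Dh hx]
  unfold Rl lph
  ring

end KNg

end Vale.Agent.P366.H896
end
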