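import Vale.Agent.P366.H896.M.X2a

/-! Metrics `η + V l ⊗ l` with `l` null: the Einstein tensor. -/

open MeasureTheory Metric Filter Topology Set
open scoped ContDiff

noncomputable section
namespace Vale.Agent.P366.H896
open Vale.Agent.P366.Stmt Vale.Agent.P366.T2

variable {m : ℕ}

/-- `X_b = k^c R_{cb}` -/
def Xn (e : Fin m → ℝ) (l : Fin m → E m → ℝ) (V : E m → ℝ) (b : Fin m) (x : E m) : ℝ :=
  (lk e l (jn e l V b) x - V x * ∑ c, e c * (pd b (l c) x * acc e l c x) +
    V x * lS e l x * l b x) / 2 - V x ^ 2 * ac2 e l x * l b x / 2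

namespace KNg

variable {e : Fin m → ℝ} {g : Field m} {l : Fin m → E m → ℝ} {V : E m → ℝ} {U : Set (E m)}
  (h : KNg e g l V U)
include h

/-- The quadratic term of the Ricci tensor. -/
lemma quad {x : E m} (hx : x ∈ U) (a b : Fin m) :
    ∑ c, ∑ d, chr g c b d x * chr g d a c x = Qd e l V a b x := by
  set u : Fin m → Fin m → ℝ := fun b d => pd b V x * l d x + pd d V x * l b x +
    V x * pd b (l d) x + V x * pd d (l b) x + V x * Dh e l V b d x with hu
  set v : Fin m → Fin m → ℝ := fun b c => V x * pd b (l c) x - V x * pd c (l b) x -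
    pd c V x * l b x with hv
  set om : Fin m → Fin m → ℝ := fun d c => pd d (l c) x - pd c (l d) x with hom
  have hc : ∀ c b d, chr g c b d x =
      e c * (l c x * u b d + v b c * l d x + V x * l b x * om d c) / 2 := by
    intro c b d
    rw [h.chr_eq hx, (h.hp_hl hx b d c).pd, (h.hp_hl hx d b c).pd, (h.hp_hl hx c b d).pd]
    simp only [hu, hv, hom]
    ring
  set w : Fin m → ℝ := fun b => lk e l V x * l b x + V x * acc e l b x with hw
  have lu : ∀ b, ∑ d, e d * (l d x * u b d) = w b := by
    intro b
    have e1 : ∀ d, e d * (l d x * u b d) = pd b V x *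
        (e d * (l d x * l d x)) + (e d * (l d x * pd d V x)) * l b x +
        V x * (e d * (l d x * pd b (l d) x)) + V x * (e d * (l d x * pd d (l b) x)) +
        V x * ((e d * l d x) * Dh e l V b d x) := by
      intro d; simp only [hu]; ring
    simp only [e1, Finset.sum_add_distrib, ← Finset.sum_mul, ← Finset.mul_sum,
      h.null x hx, h.null1 hx, h.k_Dh hx]
    simp only [hw]
    unfold acc lk; ring
  have lv : ∀ b, ∑ d, e d * (l d x * v b d) = - w b := by
    intro b
    have e1 : ∀ d, e d * (l d x * v b d) =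
        V x * (e d * (l d x * pd b (l d) x)) - V x * (e d * (l d x * pd d (l b) x)) -
        (e d * (l d x * pd d V x)) * l b x := by
      intro d; simp only [hv]; ring
    simp only [e1, Finset.sum_sub_distrib, ← Finset.sum_mul, ← Finset.mul_sum,
      h.null1 hx]
    simp only [hw]
    unfold acc lk; ring
  have lom : ∀ c, ∑ d, e d * (l d x * om d c) = acc e l c x := by
    intro c
    have e1 : ∀ d, e d * (l d x * om d c) =
        e d * (l d x * pd d (l c) x) - e d * (l d x * pd c (l d) x) := by
      intro d; simp only [hom]; ring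
    simp only [e1, Finset.sum_sub_distrib, h.null1 hx]
    unfold acc lk; ring
  have omo : ∀ c d, om c d = - om d c := by intro c d; simp only [hom]; ring
  -- contractions with the acceleration
  have aD : ∀ b, ∑ d, e d * (acc e l d x * Dh e l V b d x) = V x * l b x * ac2 e l x := by
    intro b
    have e1 : ∀ d, e d * (acc e l d x * Dh e l V b d x) =
        (lk e l V x * l b x + V x * acc e l b x) * (e d * (l d x * acc e l d x)) +
        (V x * l b x) * (e d * (acc e l d x * acc e l d x)) := fun d => by unfold Dh; ring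
    simp only [e1, Finset.sum_add_distrib, ← Finset.mul_sum, h.k_acc hx]
    unfold ac2; ring
  have au : ∀ b, ∑ d, e d * (acc e l d x * u b d) = l b x * ak e l V x +
      V x * (∑ d, e d * (acc e l d x * pd b (l d) x)) + V x * ak e l (l b) x +
      V x ^ 2 * l b x * ac2 e l x := by
    intro b
    have e1 : ∀ d, e d * (acc e l d x * u b d) = pd b V x * (e d * (l d x * acc e l d x)) +
        l b x * (e d * (acc e l d x * pd d V x)) +
        V x * (e d * (acc e l d x * pd b (l d) x)) + V x * (e d * (acc e l d x * pd d (l b) x)) +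
        V x * (e d * (acc e l d x * Dh e l V b d x)) := by
      intro d; simp only [hu]; ring
    simp only [e1, Finset.sum_add_distrib, ← Finset.mul_sum, h.k_acc hx, aD]
    unfold ak; ring
  have av : ∀ b, ∑ d, e d * (acc e l d x * v b d) =
      V x * (∑ d, e d * (acc e l d x * pd b (l d) x)) - V x * ak e l (l b) x -
      l b x * ak e l V x := by
    intro b
    have e1 : ∀ d, e d * (acc e l d x * v b d) =
        V x * (e d * (acc e l d x * pd b (l d) x)) - V x * (e d * (acc e l d x * pd d (l b) x)) -
        l b x * (e d * (acc e l d x * pd d V x)) := by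
      intro d; simp only [hv]; ring
    simp only [e1, Finset.sum_sub_distrib, ← Finset.mul_sum]
    unfold ak; ring
  have hoo : ∑ c, e c * ∑ d, e d * (om c d * om d c) = - (2 * (lS e l x - lT e l x)) := by
    have e0 : ∀ c, e c * ∑ d, e d * (om c d * om d c) = ∑ d, e c * (e d * (om c d * om d c)) :=
      fun c => Finset.mul_sum _ _ _
    simp only [e0]
    have e1 : ∀ c d, e c * (e d * (om c d * om d c)) =
        e c * (e d * (pd c (l d) x * pd d (l c) x)) +
        e d * (e c * (pd d (l c) x * pd c (l d) x)) -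
        e c * (e d * (pd c (l d) x * pd c (l d) x)) -
        e d * (e c * (pd d (l c) x * pd d (l c) x)) := by
      intro c d; simp only [hom]; ring
    have e2 : ∑ c, ∑ d, e d * (e c * (pd d (l c) x * pd c (l d) x)) = lT e l x := by
      rw [Finset.sum_comm]; unfold lT
      simp only [← Finset.mul_sum]
    have e3 : ∑ c, ∑ d, e d * (e c * (pd d (l c) x * pd d (l c) x)) = lS e l x := by
      rw [Finset.sum_comm]; unfold lS
      simp only [← Finset.mul_sum]
    have e4 : ∑ c, ∑ d, e c * (e d * (pd c (l d) x * pd d (l c) x)) = lT e l x := by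
      unfold lT
      simp only [← Finset.mul_sum]
    have e5 : ∑ c, ∑ d, e c * (e d * (pd c (l d) x * pd c (l d) x)) = lS e l x := by
      unfold lS
      simp only [← Finset.mul_sum]
    simp only [e1, Finset.sum_add_distrib, Finset.sum_sub_distrib, e2, e3, e4, e5]
    ring
  have h1 : ∀ c d, chr g c b d x * chr g d a c x =
      (e c * ((l c x * u a c) * (e d * (l d x * u b d))) +
        e c * ((v b c * u a c) * (e d * (l d x * l d x))) +
        e c * ((l c x * v b c) * (e d * (l d x * v a d))) -
        e c * ((V x * l a x * v b c) * (e d * (l d x * om d c))) +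
        e c * ((V x * l b x * u a c) * (e d * (l d x * om d c))) +
        V x ^ 2 * (l a x * l b x) * (e c * (e d * (om c d * om d c)))) / 4 +
      (e d * ((u b d * v a d) * (e c * (l c x * l c x))) +
        e d * ((u b d * (V x * l a x)) * (e c * (l c x * om c d))) -
        e d * ((v a d * (V x * l b x)) * (e c * (l c x * om c d)))) / 4 := by
    intro c d
    rw [hc, hc, omo d c]; ring
  simp only [h1, Finset.sum_add_distrib]
  have z2 : ∑ c, ∑ d, (e d * ((u b d * v a d) * (e c * (l c x * l c x))) +
        e d * ((u b d * (V x * l a x)) * (e c * (l c x * om c d))) -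
        e d * ((v a d * (V x * l b x)) * (e c * (l c x * om c d)))) / 4 =
      (V x * l a x * (∑ d, e d * (acc e l d x * u b d)) -
        V x * l b x * ∑ d, e d * (acc e l d x * v a d)) / 4 := by
    rw [Finset.sum_comm]
    simp only [← Finset.sum_div, Finset.sum_add_distrib, Finset.sum_sub_distrib,
      ← Finset.mul_sum, h.null x hx, lom]
    congr 1
    simp only [mul_zero, Finset.sum_const_zero, zero_add]
    simp only [Finset.mul_sum]
    congr 1
    · exact Finset.sum_congr rfl fun d _ => by ring
    · exact Finset.sum_congr rfl fun d _ => by ring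
  rw [z2]
  simp only [← Finset.sum_div, Finset.sum_add_distrib, Finset.sum_sub_distrib, ← Finset.mul_sum,
    h.null x hx, lom, lu, lv]
  have e6 : ∀ c, e c * (l c x * u a c * w b) = (e c * (l c x * u a c)) * w b := fun c => by ring
  have e7 : ∀ c, e c * (l c x * v b c * - w a) = (e c * (l c x * v b c)) * (- w a) :=
    fun c => by ring
  have e8 : ∀ c, e c * (V x * l a x * v b c * acc e l c x) =
      (V x * l a x) * (e c * (acc e l c x * v b c)) := fun c => by ring
  have e9 : ∀ c, e c * (V x * l b x * u a c * acc e l c x) =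
      (V x * l b x) * (e c * (acc e l c x * u a c)) := fun c => by ring
  simp only [e6, e7, e8, e9, ← Finset.sum_mul, ← Finset.mul_sum, lu, lv, mul_zero,
    Finset.sum_const_zero, au, av, hoo]
  unfold Qd
  simp only [hw]
  ring

theorem ric_eq {x : E m} (hx : x ∈ U) (a b : Fin m) :
    ric g a b x = Rl e l V a b x + Qn e l V a b x := by
  have h1 : ∑ k, pd b (chr g k a k) x = 0 := by
    have e1 : HP b (fun y => ∑ k, chr g k a k y) _ x :=
      HP.sum _ fun k _ => h.hp_chr hx b k a k
    have e2 : HP b (fun y => ∑ k, chr g k a k y) 0 x :=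
      hp_congrU h.op hx (fun y hy => h.chr_tr hy a) (HP.const b 0 x)
    rw [← e1.pd.symm.trans e2.pd]
    exact Finset.sum_congr rfl fun k _ => (h.hp_chr hx b k a k).pd
  have h2 : ∑ k, ∑ l, chr g k k l x * chr g l a b x = 0 := by
    rw [Finset.sum_comm]
    simp only [← Finset.sum_mul, h.chr_tr' hx, zero_mul, Finset.sum_const_zero]
  unfold ric
  simp only [Finset.sum_add_distrib, Finset.sum_sub_distrib, h1, h2, h.quad hx, h.div_chr hx]
  unfold Qn
  ring

lemma ric_symm {x : E m} (hx : x ∈ U) (a b : Fin m) : ric g a b x = ric g b a x := by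
  rw [h.ric_eq hx, h.ric_eq hx, h.Rln_symm hx, Qn_symm a b]

/-- `k^a □ h_{ab} = - V |∂l|² l_b` -/
lemma k_box {x : E m} (hx : x ∈ U) (b : Fin m) :
    ∑ a, (e a * l a x) * ∑ c, e c * pd c (pd c (hl l V a b)) x = - (V x * lS e l x * l b x) := by
  have e1 : ∀ a, (e a * l a x) * ∑ c, e c * pd c (pd c (hl l V a b)) x =
      ∑ c, e c * ((pd c (pd c V) x * l b x + 2 * (pd c V x * pd c (l b) x) +
          V x * pd c (pd c (l b)) x) * (e a * (l a x * l a x)) +
        (2 * (pd c V x * l b x) + 2 * (V x * pd c (l b) x)) * (e a * (l a x * pd c (l a) x)) +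
        (V x * l b x) * (e a * (l a x * pd c (pd c (l a)) x))) := by
    intro a
    rw [Finset.mul_sum]
    refine Finset.sum_congr rfl fun c _ => ?_
    rw [h.pd2_hl hx]; ring
  simp only [e1]
  rw [Finset.sum_comm]
  simp only [← Finset.mul_sum, Finset.sum_add_distrib, h.null x hx, h.null1 hx, h.null2 hx]
  unfold lS
  rw [← neg_mul, ← mul_neg, mul_comm (V x), mul_assoc, Finset.sum_congr rfl (fun c _ => ?_)]
  rotate_left
  · exact fun c => (- (V x * l b x)) * (e c * ∑ a, e a * (pd c (l a) x * pd c (l a) x))
  · ring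
  rw [← Finset.mul_sum]; ring

lemma k_ak {x : E m} (hx : x ∈ U) : ∑ b, (e b * l b x) * ak e l (l b) x = 0 := by
  unfold ak
  have e1 : ∀ b, (e b * l b x) * ∑ d, e d * (acc e l d x * pd d (l b) x) =
      ∑ d, (e d * acc e l d x) * (e b * (l b x * pd d (l b) x)) := by
    intro b; rw [Finset.mul_sum]; exact Finset.sum_congr rfl fun d _ => by ring
  simp only [e1]
  rw [Finset.sum_comm]
  simp only [← Finset.mul_sum, h.null1 hx, mul_zero, Finset.sum_const_zero]

lemma k_Qd {x : E m} (hx : x ∈ U) (a : Fin m) : ∑ b, (e b * l b x) * Qd e l V a b x = 0 := by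
  have e1 : ∀ b, (e b * l b x) * Qd e l V a b x =
      ((lk e l V x * l a x + V x * acc e l a x) * lk e l V x / 2 + V x * l a x * ak e l V x +
        V x ^ 2 * ak e l (l a) x / 2 + V x ^ 3 * ac2 e l x * l a x / 2 -
        V x ^ 2 * l a x * (lS e l x - lT e l x) / 2) * (e b * (l b x * l b x)) +
      ((lk e l V x * l a x + V x * acc e l a x) * V x / 2) * (e b * (l b x * acc e l b x)) +
      (V x ^ 2 * l a x / 2) * ((e b * l b x) * ak e l (l b) x) := by
    intro b; unfold Qd; ring
  simp only [e1, Finset.sum_add_distrib, ← Finset.mul_sum, h.null x hx, h.k_acc hx, h.k_ak hx]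
  ring

lemma k_Qn {x : E m} (hx : x ∈ U) (a : Fin m) : ∑ b, (e b * l b x) * Qn e l V a b x =
    - (V x ^ 2 * ac2 e l x * l a x / 2) := by
  have e1 : ∀ b, (e b * l b x) * Qn e l V a b x =
      (lph e l V x / 2) * ((e b * l b x) * Dh e l V a b x) +
      (V x / 2) * ((e b * l b x) * DDh e l V a b x) - (e b * l b x) * Qd e l V a b x := by
    intro b; unfold Qn; ring
  simp only [e1, Finset.sum_add_distrib, Finset.sum_sub_distrib, ← Finset.mul_sum, h.k_Dh hx,
    h.k_DDh hx, h.k_Qd hx]
  ring

/-- `k^b R_{ab}` -/
lemma ric_k {x : E m} (hx : x ∈ U) (a : Fin m) : ∑ b, (e b * l b x) * ric g a b x =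
    Xn e l V a x := by
  have e1 : ∀ b, (e b * l b x) * ric g a b x =
      (pd a (lph e l V) x / 2) * (e b * (l b x * l b x)) +
      (lph e l V x / 2) * (e b * (l b x * pd a (l b) x)) +
      (pd a V x / 2) * (e b * (l b x * acc e l b x)) +
      (V x / 2) * (e b * (l b x * pd a (acc e l b) x)) +
      (e b * (l b x * pd b (jn e l V a) x)) / 2 -
      ((e b * l b x) * ∑ c, e c * pd c (pd c (hl l V b a)) x) / 2 +
      (e b * l b x) * Qn e l V a b x := by
    intro b
    rw [h.ric_eq hx, h.Rln_eq hx, (h.hp_jn hx a b).pd, hl_symm l V b a]; ring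
  simp only [e1, Finset.sum_add_distrib, Finset.sum_sub_distrib, ← Finset.mul_sum,
    ← Finset.sum_div, h.null x hx, h.null1 hx, h.k_acc hx, h.k_acc1 hx, h.k_box hx, h.k_Qn hx]
  have e2 : ∑ b, e b * (l b x * pd b (jn e l V a) x) = lk e l (jn e l V a) x := rfl
  rw [e2]
  unfold Xn
  ring

/-- `k^a k^b R_{ab} = - V |a|²` -/
lemma ric_kk {x : E m} (hx : x ∈ U) : ∑ a, (e a * l a x) * Xn e l V a x =
    - (V x * ac2 e l x) := by
  have hj : ∑ a, (e a * l a x) * lk e l (jn e l V a) x = - (V x * ac2 e l x) := by
    -- `D (k^a j_a) = 0`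
    have h0 : ∀ y ∈ U, ∑ a, e a * (l a y * jn e l V a y) = 0 := by
      intro y hy
      have e1 : ∀ a, e a * (l a y * jn e l V a y) = lph e l V y * (e a * (l a y * l a y)) +
          V y * (e a * (l a y * acc e l a y)) := fun a => by unfold jn; ring
      simp only [e1, Finset.sum_add_distrib, ← Finset.mul_sum, h.null y hy, h.k_acc hy]
      ring
    have h1 : ∀ c, ∑ a, e a * (pd c (l a) x * jn e l V a x + l a x * pd c (jn e l V a) x) = 0 := by
      intro c
      have h2 : HP c (fun y => ∑ a, e a * (l a y * jn e l V a y))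
          (∑ a, e a * (pd c (l a) x * jn e l V a x + l a x * pd c (jn e l V a) x)) x := by
        refine HP.sum _ fun a _ => ?_
        have h3 := (((h.sl0 a).hp hx c).mul (h.hp_jn hx c a)).const_mul (e a)
        rw [← (h.hp_jn hx c a).pd] at h3
        exact h3
      exact h2.pd.symm.trans (hp_congrU h.op hx h0 (HP.const c 0 x)).pd
    have h4 : ∑ c, (e c * l c x) * ∑ a, e a * (pd c (l a) x * jn e l V a x +
        l a x * pd c (jn e l V a) x) = 0 := Finset.sum_eq_zero fun c _ => by rw [h1, mul_zero]
    have h5 : ∑ c, (e c * l c x) * ∑ a, e a * (pd c (l a) x * jn e l V a x +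
        l a x * pd c (jn e l V a) x) = ∑ a, e a * (acc e l a x * jn e l V a x) +
        ∑ a, (e a * l a x) * lk e l (jn e l V a) x := by
      have h6 : ∀ c, (e c * l c x) * ∑ a, e a * (pd c (l a) x * jn e l V a x +
          l a x * pd c (jn e l V a) x) = ∑ a, (e a * jn e l V a x * (e c * (l c x *
            pd c (l a) x)) + (e a * l a x) * (e c * (l c x * pd c (jn e l V a) x))) := by
        intro c; rw [Finset.mul_sum]; exact Finset.sum_congr rfl fun a _ => by ring
      simp only [h6]
      rw [Finset.sum_comm, ← Finset.sum_add_distrib]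
      refine Finset.sum_congr rfl fun a _ => ?_
      rw [Finset.sum_add_distrib, ← Finset.mul_sum, ← Finset.mul_sum]
      have f1 : ∀ F : E m → ℝ, ∑ c, e c * (l c x * pd c F x) = lk e l F x := fun _ => rfl
      have f2 : lk e l (l a) x = acc e l a x := rfl
      rw [f1, f1, f2]; ring
    have h7 : ∑ a, e a * (acc e l a x * jn e l V a x) = V x * ac2 e l x := by
      have e1 : ∀ a, e a * (acc e l a x * jn e l V a x) =
          lph e l V x * (e a * (l a x * acc e l a x)) +
          V x * (e a * (acc e l a x * acc e l a x)) := fun a => by unfold jn; ring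
      simp only [e1, Finset.sum_add_distrib, ← Finset.mul_sum, h.k_acc hx]
      unfold ac2; ring
    rw [h5, h7] at h4
    linarith
  have ha : ∑ a, (e a * l a x) * ∑ c, e c * (pd a (l c) x * acc e l c x) = ac2 e l x := by
    have h6 : ∀ a, (e a * l a x) * ∑ c, e c * (pd a (l c) x * acc e l c x) =
        ∑ c, (e c * acc e l c x) * (e a * (l a x * pd a (l c) x)) := by
      intro a; rw [Finset.mul_sum]; exact Finset.sum_congr rfl fun c _ => by ring
    simp only [h6]
    rw [Finset.sum_comm]
    unfold ac2
    refine Finset.sum_congr rfl fun c _ => ?_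
    rw [← Finset.mul_sum]
    have f2 : ∑ a, e a * (l a x * pd a (l c) x) = acc e l c x := rfl
    rw [f2]; ring
  have e1 : ∀ a, (e a * l a x) * Xn e l V a x = ((e a * l a x) * lk e l (jn e l V a) x) / 2 -
      (V x / 2) * ((e a * l a x) * ∑ c, e c * (pd a (l c) x * acc e l c x)) +
      (V x * lS e l x / 2 - V x ^ 2 * ac2 e l x / 2) * (e a * (l a x * l a x)) := by
    intro a; unfold Xn; ring
  simp only [e1, Finset.sum_add_distrib, Finset.sum_sub_distrib, ← Finset.mul_sum,
    ← Finset.sum_div, h.null x hx, hj, ha]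
  ring

lemma g_k {x : E m} (hx : x ∈ U) (b : Fin m) : ∑ a, (e a * l a x) * g x a b = l b x := by
  have e1 : ∀ a, (e a * l a x) * g x a b = (if a = b then l b x else 0) +
      (V x * l b x) * (e a * (l a x * l a x)) := by
    intro a
    rw [h.hg x hx]
    split_ifs with hab
    · subst hab
      linear_combination (l a x) * h.he a
    · ring
  simp only [e1, Finset.sum_add_distrib, Finset.sum_ite_eq', Finset.mem_univ, if_true,
    ← Finset.mul_sum, h.null x hx]
  ring

lemma g_symm {x : E m} (hx : x ∈ U) (a b : Fin m) : g x a b = g x b a := by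
  rw [h.hg x hx, h.hg x hx]
  by_cases hab : a = b
  · subst hab; rfl
  · rw [if_neg hab, if_neg (Ne.symm hab)]; ring

lemma ein_symm {x : E m} (hx : x ∈ U) (a b : Fin m) : ein g a b x = ein g b a x := by
  unfold ein; rw [h.ric_symm hx, h.g_symm hx a b]

lemma ein_k {x : E m} (hx : x ∈ U) (b : Fin m) : ∑ a, (e a * l a x) * ein g a b x =
    Xn e l V b x - scal g x / 2 * l b x := by
  have e1 : ∀ a, (e a * l a x) * ein g a b x = (e a * l a x) * ric g b a x -
      scal g x / 2 * ((e a * l a x) * g x a b) := by
    intro a; unfold ein; rw [h.ric_symm hx a b]; ring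
  simp only [e1, Finset.sum_sub_distrib, ← Finset.mul_sum, h.ric_k hx, h.g_k hx]

/-- **`G(k,k) = - V |a|²`** -/
theorem ein_kk {x : E m} (hx : x ∈ U) :
    ∑ a, ∑ b, ein g a b x * (e a * l a x) * (e b * l b x) = - (V x * ac2 e l x) := by
  rw [← h.ric_kk hx, Finset.sum_comm]
  have e1 : ∀ b, ∑ a, ein g a b x * (e a * l a x) * (e b * l b x) =
      (e b * l b x) * Xn e l V b x - scal g x / 2 * (e b * (l b x * l b x)) := by
    intro b
    rw [← Finset.sum_mul]
    have e2 : ∑ a, ein g a b x * (e a * l a x) = Xn e l V b x - scal g x / 2 * l b x := by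
      rw [← h.ein_k hx b]; exact Finset.sum_congr rfl fun a _ => by ring
    rw [e2]; ring
  simp only [e1, Finset.sum_sub_distrib, ← Finset.mul_sum, h.null x hx]
  ring

/-- the scalar curvature -/
theorem scal_eq {x : E m} (hx : x ∈ U) : scal g x =
    ∑ a, e a * Rl e l V a a x + ∑ a, e a * Qn e l V a a x + V x ^ 2 * ac2 e l x := by
  rw [scal_ric]
  have e1 : ∀ a, ∑ b, up g a b x * ric g a b x = e a * Rl e l V a a x + e a * Qn e l V a a x -
      V x * ((e a * l a x) * Xn e l V a x) := by
    intro a
    rw [← h.ric_k hx a]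
    have e2 : ∀ b, up g a b x * ric g a b x = (if a = b then e a * ric g a a x else 0) -
        (V x * (e a * l a x)) * ((e b * l b x) * ric g a b x) := by
      intro b
      rw [h.up_eq hx (h.null x hx)]
      split_ifs with hab
      · subst hab; ring
      · ring
    simp only [e2, Finset.sum_sub_distrib, Finset.sum_ite_eq, Finset.mem_univ, if_true,
      ← Finset.mul_sum]
    rw [h.ric_eq hx a a]; ring
  simp only [e1, Finset.sum_add_distrib, Finset.sum_sub_distrib, ← Finset.mul_sum, h.ric_kk hx]
  ring

/-- the mixed Einstein tensor -/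
theorem einM_eq {x : E m} (hx : x ∈ U) (a b : Fin m) : einM g a b x =
    e a * Rl e l V a b x + e a * Qn e l V a b x - V x * (e a * l a x) * Xn e l V b x -
      (if a = b then 1 else 0) * scal g x / 2 := by
  have h2 : einM g a b x = e a * ein g a b x - V x * (e a * l a x) *
      (Xn e l V b x - scal g x / 2 * l b x) := by
    unfold einM
    have e1 : ∀ d, up g a d x * ein g d b x = (if a = d then e a * ein g a b x else 0) -
        (V x * (e a * l a x)) * ((e d * l d x) * ein g d b x) := by
      intro d
      rw [h.up_eq hx (h.null x hx)]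
      split_ifs with hd
      · subst hd; ring
      · ring
    simp only [e1, Finset.sum_sub_distrib, Finset.sum_ite_eq, Finset.mem_univ, if_true,
      ← Finset.mul_sum, h.ein_k hx]
  rw [h2]
  unfold ein
  rw [h.ric_eq hx, h.hg x hx]
  have hea := h.he a
  by_cases hab : a = b
  · subst hab
    simp only [if_true]
    linear_combination (-(scal g x) / 2) * hea
  · simp only [if_neg hab]
    ring

/-- `∂_c U^{ac}_b` is the linearized mixed Einstein tensor -/
theorem div_UL {x : E m} (hx : x ∈ U) (a b : Fin m) : ∑ c, pd c (UL e l V a c b) x =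
    e a * Rl e l V a b x - (if a = b then 1 else 0) * (∑ c, e c * Rl e l V c c x) / 2 := by
  have h1 : ∀ y ∈ U, ∀ c, UL e l V a c b y =
      (e a * e c * (pd a (hl l V c b) y - pd c (hl l V a b) y) -
        (if a = b then 1 else 0) * (e c * jn e l V c y) +
        (if c = b then 1 else 0) * (e a * jn e l V a y)) * (1 / 2) := by
    intro y hy c
    have h2 : ∀ c, ∑ d, e c * e d * pd d (hl l V c d) y = e c * jn e l V c y := by
      intro c
      rw [← h.div_hn hy c, Finset.mul_sum]
      exact Finset.sum_congr rfl fun d _ => by ring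
    have h3 : ∑ d, e a * e d * pd d (hl l V a d) y = e a * jn e l V a y := by
      rw [← h.div_hn hy a, Finset.mul_sum]
      exact Finset.sum_congr rfl fun d _ => by ring
    unfold UL
    rw [h2, h3]
    split_ifs <;> ring
  have s1 : ∀ c d, HP c (jn e l V d) (pd c (jn e l V d) x) x := fun c d => by
    have := h.hp_jn hx c d
    rw [← this.pd] at this
    exact this
  have h2 : ∀ c, pd c (UL e l V a c b) x =
      (e a * e c * (pd c (pd a (hl l V c b)) x - pd c (pd c (hl l V a b)) x) -
      (if a = b then 1 else 0) * (e c * pd c (jn e l V c) x) +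
      (if c = b then 1 else 0) * (e a * pd c (jn e l V a) x)) * (1 / 2) := by
    intro c
    have h4 : HP c (fun y => (e a * e c * (pd a (hl l V c b) y - pd c (hl l V a b) y) -
        (if a = b then 1 else 0) * (e c * jn e l V c y) +
        (if c = b then 1 else 0) * (e a * jn e l V a y)) * (1 / 2)) _ x :=
      (((((((h.shl1 a c b).hp hx c).sub ((h.shl1 c a b).hp hx c)).const_mul (e a * e c)).sub
      (((s1 c c).const_mul (e c)).const_mul (if a = b then 1 else 0))).add
      (((s1 c a).const_mul (e a)).const_mul (if c = b then 1 else 0))).mul (HP.const c (1 / 2) x))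
    rw [(hp_congrU h.op hx (fun y hy => h1 y hy c) h4).pd]
    ring
  have hj : ∑ c, e c * pd c (jn e l V c) x = ∑ c, e c * Rl e l V c c x := by
    have e1 : ∀ c, e c * Rl e l V c c x = e c * pd c (jn e l V c) x -
        (e c * ∑ d, e d * pd d (pd d (hl l V c c)) x) / 2 := by
      intro c; rw [h.Rln_eq hx]; ring
    have e2 : ∑ c, e c * ∑ d, e d * pd d (pd d (hl l V c c)) x = 0 := by
      have e3 : ∀ a, e a * ∑ c, e c * pd c (pd c (hl l V a a)) x =
          ∑ c, e c * (pd c (pd c V) x * (e a * (l a x * l a x)) +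
            (4 * pd c V x) * (e a * (l a x * pd c (l a) x)) +
            (2 * V x) * (e a * (l a x * pd c (pd c (l a)) x)) +
            (2 * V x) * (e a * (pd c (l a) x * pd c (l a) x))) := by
        intro a
        rw [Finset.mul_sum]
        refine Finset.sum_congr rfl fun c _ => ?_
        rw [h.pd2_hl hx]; ring
      simp only [e3]
      rw [Finset.sum_comm]
      simp only [← Finset.mul_sum, Finset.sum_add_distrib, h.null x hx, h.null1 hx, h.null2 hx]
      refine Finset.sum_eq_zero fun c _ => ?_
      ring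
    simp only [e1, Finset.sum_sub_distrib, ← Finset.sum_div, e2]
    ring
  have e1 : ∀ c, pd c (UL e l V a c b) x =
      (e a / 2) * (e c * pd c (pd a (hl l V c b)) x) -
      (e a / 2) * (e c * pd c (pd c (hl l V a b)) x) -
      ((if a = b then 1 else 0) / 2) * (e c * pd c (jn e l V c) x) +
      (if c = b then e a * pd b (jn e l V a) x / 2 else 0) := by
    intro c
    rw [h2 c]
    by_cases hcb : c = b
    · subst hcb
      simp only [if_true]
      ring
    · simp only [if_neg hcb]
      ring
  simp only [e1, Finset.sum_add_distrib, Finset.sum_sub_distrib, ← Finset.mul_sum, h.div2n hx,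
    hj, Finset.sum_ite_eq', Finset.mem_univ, if_true]
  rw [h.Rln_eq hx]
  ring

end KNg

end Vale.Agent.P366.H896
end
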